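import Vale.Agent.P338.R2.H784.Alpha
import Vale.Agent.P338.R2.H784.Lib
import Vale.Agent.P338.R2.H778.Extra

/-!
P338-D: cells, their operations, and the files of the cell machine.

A cell is a sequence of `nw = 2 Y` signed words of `b` bits (two's complement modulo `2 ^ b`); it is
written as `nw * b` bits: the word number `nw - 1` first, every word with its most significant bit
first.  Arrays are files of cells; the head of an array is at the left end of a cell.
-/

namespace Vale.Agent.P338.R3.H968

open Vale.Agent.P338.R2.H898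
open Vale.Agent.P338.R2.H968
open Vale.Agent.P338.R2.H784
open Vale.Agent.P338.R2.H968.CallEnv (mem0)
open Vale.Agent.P338.R2.H778 (bits val)

/-- The parameters: words of `b` bits, `2 Y` words in a cell, scale `2 ^ s`, digits of `w` bits. -/
structure CPar where
  b : ℕ
  Y : ℕ
  s : ℕ
  w : ℕ

namespace CPar

/-- The number of words of a cell. -/
def nw (P : CPar) : ℕ := 2 * P.Y

/-- The length of a cell. -/
def ell (P : CPar) : ℕ := P.nw * P.b

/-- The conditions. -/
structure Ok (P : CPar) : Prop where
  hY : 1 ≤ P.Y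
  hw : 1 ≤ P.w
  hs : 1 ≤ P.s
  hb : P.s + P.w + 1 ≤ P.b
  hn : P.nw ≤ 2 ^ P.b

end CPar

/-- The word of `b` bits of an integer (modulo `2 ^ b`). -/
def wz (b : ℕ) (z : ℤ) : List Bool := bits b (z % 2 ^ b).toNat

/-- The values of the words of a cell (`x 0` is the word of lowest degree). -/
abbrev Cell : Type := ℕ → ℤ

/-- `n` words: the word number `n - 1` first. -/
def wds (b n : ℕ) (x : Cell) : List Bool := (List.range n).flatMap fun i => wz b (x (n - 1 - i))

/-- The bits of a cell. -/
def cellB (P : CPar) (x : Cell) : List Bool := wds P.b P.nw x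

/-- The signed value of a word. -/
def sg (b : ℕ) (z : ℤ) : ℤ := Int.bmod z (2 ^ b)

/-! Operations on cells. -/

def cAdd (x y : Cell) : Cell := fun j => x j + y j
def cSub (x y : Cell) : Cell := fun j => x j - y j
def cNeg (x : Cell) : Cell := fun j => - x j
def cShl (k : ℕ) (x : Cell) : Cell := fun j => x j * 2 ^ k
def cShr (P : CPar) (k : ℕ) (x : Cell) : Cell := fun j => sg P.b (x j) / 2 ^ k
/-- Product with a fixed point constant. -/
def cMulw (P : CPar) (c : ℤ) (x : Cell) : Cell := fun j => sg P.b (x j) * sg P.b c / 2 ^ P.s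
/-- Product of polynomials (modulo the terms of degree at least `nw`), scaled. -/
def cMulp (P : CPar) (x y : Cell) : Cell :=
  fun j => (∑ i ∈ Finset.range (j + 1), sg P.b (x i) * sg P.b (y (j - i))) / 2 ^ P.s
/-- The lower half. -/
def cLo (P : CPar) (x : Cell) : Cell := fun j => if j < P.Y then x j else 0
/-- The upper half, moved down. -/
def cHi (P : CPar) (x : Cell) : Cell := fun j => if j < P.Y then x (j + P.Y) else 0
/-- The cell of `Y` digits of a number. -/
def cLoad (P : CPar) (v : ℕ) : Cell :=
  fun j => if j < P.Y then ((v / 2 ^ (P.w * j) % 2 ^ P.w : ℕ) : ℤ) * 2 ^ P.s else 0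

/-- The rounded value of a word. -/
def rnd (P : CPar) (z : ℤ) : ℤ := (sg P.b z + 2 ^ (P.s - 1)) / 2 ^ P.s

/-- Release of `n` digits of `w` bits with carry `c`, beginning with the word number `k`: the bits,
least significant bit first, and the new carry. -/
def emit (P : CPar) (x : Cell) : ℕ → ℕ → ℕ → List Bool × ℕ
  | 0, _, c => ([], c)
  | n + 1, k, c =>
    let c' := (c + (rnd P (x k) % 2 ^ P.b).toNat) % 2 ^ P.b
    let r := emit P x n (k + 1) (c' / 2 ^ P.w)
    ((bits P.w c').reverse ++ r.1, r.2)

/-! The files. -/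

/-- Rulers. -/
inductive RN
  /-- `nw * b` -/
  | ell
  /-- `nw` -/
  | nw
  /-- `b` -/
  | b
  /-- `2 * b` -/
  | b2
  /-- `(3 * b + 1) * nw` -/
  | b3
  /-- `3 * b - s` -/
  | q
  /-- `2 * b - s` -/
  | t
  /-- `s` -/
  | s
  /-- `s - 1` -/
  | s1
  /-- `b - s` -/
  | bs
  /-- `b - w` -/
  | bw
  /-- `w` -/
  | w
  /-- `b - s - w` -/
  | bsw
  /-- `Y` -/
  | Y
  /-- `Y * w` -/
  | Yw
  /-- `Y * b` -/
  | Yb
  deriving DecidableEq

/-- The lengths of the rulers. -/
def rv (P : CPar) : RN → ℕ
  | .ell => P.ell
  | .nw => P.nw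
  | .b => P.b
  | .b2 => 2 * P.b
  | .b3 => (3 * P.b + 1) * P.nw
  | .q => 3 * P.b - P.s
  | .t => 2 * P.b - P.s
  | .s => P.s
  | .s1 => P.s - 1
  | .bs => P.b - P.s
  | .bw => P.b - P.w
  | .w => P.w
  | .bsw => P.b - P.s - P.w
  | .Y => P.Y
  | .Yw => P.Y * P.w
  | .Yb => P.Y * P.b

/-- The files: `x`, `y` arrays, `a`, `b` stacks, `ix`, `iy` input, `out` output, `acc` carry,
`cst` constant, `sh` shift (unary), rulers, scratch files. -/
inductive CF
  | x | y | a | b
  | ix | iy | out | acc
  | cst | sh
  | r (k : RN)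
  | h (i : Fin 8)
  deriving DecidableEq

instance : Finite RN := by
  let f : RN → Fin 16 := fun
    | .ell => 0
    | .nw => 1
    | .b => 2
    | .b2 => 3
    | .b3 => 4
    | .q => 5
    | .t => 6
    | .s => 7
    | .s1 => 8
    | .bs => 9
    | .bw => 10
    | .w => 11
    | .bsw => 12
    | .Y => 13
    | .Yw => 14
    | .Yb => 15
  refine Finite.of_injective f ?_
  intro a b h
  cases a <;> cases b <;> simp_all [f]

instance : Finite CF := by
  let f : CF → Fin 10 ⊕ (RN ⊕ Fin 8) := fun
    | .x => .inl 0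
    | .y => .inl 1
    | .a => .inl 2
    | .b => .inl 3
    | .ix => .inl 4
    | .iy => .inl 5
    | .out => .inl 6
    | .acc => .inl 7
    | .cst => .inl 8
    | .sh => .inl 9
    | .r k => .inr (.inl k)
    | .h k => .inr (.inr k)
  refine Finite.of_injective f ?_
  intro a b h
  cases a <;> cases b <;> simp_all [f]

/-- All files of the cell machine: its own files, the tapes and the files of a call of `A`. -/
abbrev FT (A : MTM) : Type := CF ⊕ (A.Tape ⊕ CFile)

/-- The alphabet and the symbols of the bits. -/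
abbrev Ac (A : MTM) : Type := Sy A.Sym
abbrev bc {A : MTM} (b : Bool) : Ac A := Sy.l (bitL b)
abbrev dc (A : MTM) : Ac A := .a A.blank

/-- The data of the cell machine.  `ix`, `iy`: the digits still to be read, as a number of
`Y * w`-bit blocks (list of blocks, the next block first) -/
structure DS where
  X : Zip Cell
  Y : Zip Cell
  A : List Cell
  B : List Cell
  /-- the blocks of `Y * w` bits of the input still to be read, next block first -/
  ix : List (List Bool)
  iy : List (List Bool)
  /-- the blocks already read, last block first -/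
  jx : List (List Bool)
  jy : List (List Bool)
  /-- output, least significant bit first -/
  out : List Bool
  /-- carry -/
  acc : ℕ
  /-- constant -/
  cst : ℤ
  /-- shift -/
  sh : ℕ

/-- A file of cells. -/
def zc {A : MTM} (P : CPar) (z : Zip Cell) : Zip (Ac A) :=
  ⟨(z.l.flatMap fun c => (cellB P c).reverse).map bc, (z.r.flatMap (cellB P)).map bc⟩

/-- A stack of cells (top first). -/
def sc {A : MTM} (P : CPar) (l : List Cell) : Zip (Ac A) :=
  ⟨(l.flatMap fun c => (cellB P c).reverse).map bc, []⟩

/-- The input: the next block is to the left of the head. -/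
def ic {A : MTM} (i j : List (List Bool)) : Zip (Ac A) :=
  ⟨(i.flatMap List.reverse).map bc, j.flatten.map bc⟩

/-- The contents of the own files. -/
def fc {A : MTM} (P : CPar) (D : DS) : CF → Zip (Ac A)
  | .x => zc P D.X
  | .y => zc P D.Y
  | .a => sc P D.A
  | .b => sc P D.B
  | .ix => ic D.ix D.jx
  | .iy => ic D.iy D.jy
  | .out => ⟨D.out.reverse.map bc, []⟩
  | .acc => ⟨[], (bits P.b D.acc).map bc⟩
  | .cst => ⟨[], (wz P.b D.cst).map bc⟩
  | .sh => ⟨[], List.replicate D.sh .u⟩
  | .r k => ⟨[], List.replicate (rv P k) .u⟩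
  | .h _ => ⟨[], []⟩

/-- The contents of all files. -/
def ft {A : MTM} (P : CPar) (D : DS) : FT A → Zip (Ac A) :=
  Sum.elim (fc P D) fun _ => ⟨[], []⟩

/-- The store of the cell machine. -/
abbrev stc {A : MTM} (P : CPar) (D : DS) : Store (CallMem A) (FT A) (Ac A) :=
  ⟨mem0 A, ft P D⟩

/-- The programs of the cell machine. -/
abbrev PC (A : MTM) : Type := Prog (CallMem A) (FT A) (Ac A)

end Vale.Agent.P338.R3.H968
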