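import Vale.Agent.P338.R3.H968.Cell

/-!
P338-D: values of signed words.
-/

namespace Vale.Agent.P338.R3.H968

open Vale.Agent.P338.R2.H778 (bits val val_bits bits_val bits_add bits_mod length_bits val_append
  val_inj bits_zero)

theorem length_wz (b : ℕ) (z : ℤ) : (wz b z).length = b := length_bits _ _

/-- A natural number as a representative. -/
theorem wz_nat (b n : ℕ) : wz b (n : ℤ) = bits b n := by
  have h : ((n : ℤ) % 2 ^ b) = ((n % 2 ^ b : ℕ) : ℤ) := by push_cast; rfl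
  rw [wz, h, Int.toNat_natCast, bits_mod]

/-- The word depends on the residue only. -/
theorem wz_congr {b : ℕ} {x y : ℤ} (h : x ≡ y [ZMOD 2 ^ b]) : wz b x = wz b y := by
  unfold wz
  rw [h.eq]

theorem wz_eq_bits {b n : ℕ} {x : ℤ} (h : x ≡ (n : ℤ) [ZMOD 2 ^ b]) : wz b x = bits b n := by
  rw [wz_congr h, wz_nat]

theorem sg_congr (b : ℕ) (z : ℤ) : sg b z ≡ z [ZMOD 2 ^ b] := by
  unfold sg
  have h := Int.bmod_emod (x := z) (m := 2 ^ b)
  push_cast at h
  exact h

theorem sg_bounds {b : ℕ} (hb : 1 ≤ b) (z : ℤ) : -2 ^ (b - 1) ≤ sg b z ∧ sg b z < 2 ^ (b - 1) := by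
  obtain ⟨c, rfl⟩ : ∃ c, b = c + 1 := ⟨b - 1, by omega⟩
  have h1 := Int.le_bmod (x := z) (m := 2 ^ (c + 1)) (by positivity)
  have h2 := Int.bmod_lt (x := z) (m := 2 ^ (c + 1)) (by positivity)
  have e : ((2 ^ (c + 1) : ℕ) : ℤ) = 2 * 2 ^ c := by push_cast; ring
  rw [e] at h1 h2
  have h3 : (0 : ℤ) < 2 ^ c := by positivity
  unfold sg
  rw [Nat.add_sub_cancel]
  constructor
  · omega
  · omega

/-- The word as the word of its signed value. -/
theorem wz_sg (b : ℕ) (z : ℤ) : wz b (sg b z) = wz b z := wz_congr (sg_congr b z)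

/-- The value of a word. -/
theorem val_wz (b : ℕ) (z : ℤ) : ((val (wz b z) : ℕ) : ℤ) ≡ z [ZMOD 2 ^ b] := by
  have h0 : (0 : ℤ) < 2 ^ b := by positivity
  have h1 : ((z % 2 ^ b).toNat : ℤ) = z % 2 ^ b := Int.toNat_of_nonneg (Int.emod_nonneg _ h0.ne')
  rw [wz, val_bits]
  push_cast
  rw [h1]
  exact (Int.mod_modEq _ _).trans (Int.mod_modEq _ _)

theorem val_wz_eq (b : ℕ) (z : ℤ) : ((val (wz b z) : ℕ) : ℤ) = z % 2 ^ b := by
  have h0 : (0 : ℤ) < 2 ^ b := by positivity
  have h1 : ((z % 2 ^ b).toNat : ℤ) = z % 2 ^ b := Int.toNat_of_nonneg (Int.emod_nonneg _ h0.ne')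
  rw [wz, val_bits]
  push_cast
  rw [h1, Int.emod_emod_of_dvd _ (dvd_refl _)]

/-- The sign bit. -/
def sgb (b : ℕ) (z : ℤ) : Bool := decide (sg b z < 0)

/-- The word of nonnegative or negative numbers. -/
theorem toNat_sg {b : ℕ} (hb : 1 ≤ b) (z : ℤ) :
    (z % 2 ^ b).toNat = if sg b z < 0 then (sg b z + 2 ^ b).toNat else (sg b z).toNat := by
  have h1 := sg_bounds hb z
  have h2 : z % 2 ^ b = sg b z % 2 ^ b := (sg_congr b z).eq.symm
  have h3 : (2 : ℤ) ^ b = 2 * 2 ^ (b - 1) := by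
    rw [← pow_succ']
    congr 1
    omega
  have h4 : (0 : ℤ) < 2 ^ (b - 1) := by positivity
  rw [h2]
  split_ifs with h
  · congr 1
    rw [Int.emod_eq_add_self_emod, Int.emod_eq_of_lt (by omega) (by omega)]
  · congr 1
    rw [Int.emod_eq_of_lt (by omega) (by omega)]

/-- The first bit of a word is its sign bit. -/
theorem wz_eq_cons {b : ℕ} (hb : 1 ≤ b) (z : ℤ) :
    wz b z = sgb b z :: bits (b - 1) (z % 2 ^ b).toNat := by
  obtain ⟨c, rfl⟩ : ∃ c, b = c + 1 := ⟨b - 1, by omega⟩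
  have h1 := sg_bounds hb z
  have h2 := toNat_sg hb z
  rw [Nat.add_sub_cancel] at h1 ⊢
  have h5 : wz (c + 1) z = bits 1 ((z % 2 ^ (c + 1)).toNat / 2 ^ c) ++
      bits c (z % 2 ^ (c + 1)).toNat := by
    rw [wz, Nat.add_comm, bits_add]
  rw [h5]
  have h6 : bits 1 ((z % 2 ^ (c + 1)).toNat / 2 ^ c) = [sgb (c + 1) z] := by
    have h3 : (2 : ℤ) ^ (c + 1) = 2 * 2 ^ c := by ring
    have h4 : (0 : ℤ) < 2 ^ c := by positivity
    have h7 : (((2 ^ c : ℕ) : ℤ)) = 2 ^ c := by push_cast; rfl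
    rw [h2, sgb]
    by_cases h : sg (c + 1) z < 0
    · rw [if_pos h]
      have h8 : (sg (c + 1) z + 2 ^ (c + 1)).toNat / 2 ^ c = 1 := by
        apply Nat.div_eq_of_lt_le
        · omega
        · omega
      rw [h8]
      simp [h, bits]
    · rw [if_neg h]
      have h8 : (sg (c + 1) z).toNat / 2 ^ c = 0 := by
        apply Nat.div_eq_of_lt
        omega
      rw [h8]
      simp [h, bits]
  rw [h6]
  rfl

/-- Sign extension. -/
theorem sext_eq {b : ℕ} (hb : 1 ≤ b) (k : ℕ) (z : ℤ) :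
    List.replicate k (sgb b z) ++ wz b z = wz (k + b) (sg b z) := by
  have h1 := sg_bounds hb z
  have h3 : (2 : ℤ) ^ b = 2 * 2 ^ (b - 1) := by
    rw [← pow_succ']
    congr 1
    omega
  have h4 : (0 : ℤ) < 2 ^ (b - 1) := by positivity
  have h9 : (1 : ℤ) ≤ 2 ^ k := one_le_pow₀ (by norm_num)
  have hp : (2 : ℤ) ^ (k + b) = 2 ^ k * 2 ^ b := pow_add _ _ _
  have h10 : (2 : ℤ) ^ b ≤ 2 ^ (k + b) := by
    rw [hp]
    nlinarith
  apply val_inj
  · simp [length_wz]
  · zify
    rw [val_append, length_wz, val_wz_eq (k + b)]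
    push_cast
    rw [val_wz_eq]
    have h2 : z % 2 ^ b = sg b z % 2 ^ b := (sg_congr b z).eq.symm
    by_cases h : sg b z < 0
    · have e1 : sgb b z = true := by simp [sgb, h]
      have e2 : ((val (List.replicate k true) : ℕ) : ℤ) = 2 ^ k - 1 := by
        have := Vale.Agent.P338.R2.H778.val_replicate_true k
        have h5 : ((val (List.replicate k true) + 1 : ℕ) : ℤ) = ((2 ^ k : ℕ) : ℤ) := by rw [this]
        push_cast at h5
        omega
      rw [e1, e2, h2, Int.emod_eq_add_self_emod, Int.emod_eq_of_lt (by omega) (by omega),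
        Int.emod_eq_add_self_emod (a := sg b z), Int.emod_eq_of_lt (by omega) (by omega), hp]
      ring
    · have e1 : sgb b z = false := by simp [sgb, h]
      rw [e1, Vale.Agent.P338.R2.H778.val_replicate_false, h2,
        Int.emod_eq_of_lt (by omega) (by omega), Int.emod_eq_of_lt (by omega) (by omega)]
      simp

/-- A window in a number. -/
theorem bits_window (p b s n : ℕ) : ((bits (p + (b + s)) n).drop p).take b = bits b (n / 2 ^ s) := by
  rw [bits_add, List.drop_append_of_le_length (by simp), List.drop_of_length_le (by simp),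
    List.nil_append, bits_add, List.take_append_of_le_length (by simp),
    List.take_of_length_le (by simp)]

/-- Division by a power of two of congruent numbers. -/
theorem div_congr {x y : ℤ} {b s : ℕ} (h : x ≡ y [ZMOD 2 ^ (b + s)]) :
    x / 2 ^ s ≡ y / 2 ^ s [ZMOD 2 ^ b] := by
  obtain ⟨k, hk⟩ := h.symm.dvd
  have e : x = y + 2 ^ s * (2 ^ b * k) := by
    rw [pow_add] at hk
    linarith
  rw [e, Int.add_mul_ediv_left _ _ (by positivity)]
  exact (Int.modEq_iff_dvd.2 ⟨-k, by ring⟩)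

/-- **The product of two signed words**, scaled. -/
theorem mulw_val {b s : ℕ} (hs : s ≤ b) (x c : ℤ) :
    ((bits (4 * b) (val (wz (2 * b) (sg b x)) * val (wz (2 * b) (sg b c)))).drop
      (3 * b - s)).take b = wz b (sg b x * sg b c / 2 ^ s) := by
  have e : 4 * b = (3 * b - s) + (b + s) := by omega
  rw [e, bits_window, ← wz_nat]
  apply wz_congr
  push_cast
  apply div_congr
  have h1 : ((val (wz (2 * b) (sg b x)) : ℕ) : ℤ) ≡ sg b x [ZMOD 2 ^ (b + s)] :=
    (val_wz (2 * b) (sg b x)).of_dvd (pow_dvd_pow _ (by omega))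
  have h2 : ((val (wz (2 * b) (sg b c)) : ℕ) : ℤ) ≡ sg b c [ZMOD 2 ^ (b + s)] :=
    (val_wz (2 * b) (sg b c)).of_dvd (pow_dvd_pow _ (by omega))
  exact h1.mul h2

end Vale.Agent.P338.R3.H968
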