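import Vale.Agent.P338.R3.H968.Loc
import Vale.Agent.P338.R3.H968.WVal

/-!
P338-D: the product of all words of a cell with a constant.
-/

namespace Vale.Agent.P338.R3.H968

open Vale.Agent.P338.R2.H898 hiding val
open Prog
open Vale.Agent.P338.R2.H968
open Vale.Agent.P338.R2.H784
open Vale.Agent.P338.R2.H968.CallEnv (mem0 callC)
open Vale.Agent.P338.R2.H778 (bits val length_bits)
open Vale.Agent.P338.R2.H525 (mulBits padTo zeros)
open Function (update)

variable {A : MTM}

/-- A ruler. -/
abbrev rf (k : RN) : FT A := .inl (.r k)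

/-- Call of `A` on the files `opX`, `opY`, with the ruler `nr`. -/
noncomputable def call (A : MTM) (nr : CF) : PC A := .seq ((En A).mulP (cf nr)) (clr (kf .clk))

theorem mulBits_full {n : ℕ} {x y : List Bool} (hx : x.length = n) (hy : y.length = n) :
    mulBits n x y = bits (2 * n) (val x * val y) := by
  simp [mulBits, padTo, zeros, hx, hy]

section
variable [DecidableEq (FT A)]

theorem run_call (hA : Multiplies A) {nr : CF} {N : ℕ} (hN : 1 ≤ N) {x y : List Bool}
    (hx : x.length = N) (hy : y.length = N) (o : CF → Zip (Ac A))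
    (hnr : o nr = ⟨[], List.replicate N .u⟩) :
    Run (dc A) (call A nr) ⟨mem0 A, S o ⟨[], x.map bc⟩ ⟨[], y.map bc⟩ ⟨[], []⟩ ⟨[], []⟩⟩
      ((callC A + 32) * (mulTime A N + N))
      ⟨mem0 A, S o ⟨[], []⟩ ⟨[], []⟩ ⟨[], (bits (2 * N) (val x * val y)).map bc⟩ ⟨[], []⟩⟩ := by
  obtain ⟨T, hT, h1⟩ := (En A).run_mulP hA (nr := cf nr) (fun i => by
      change (Sum.inr i : FT A) ≠ Sum.inl nr
      simp) (NR := List.replicate N .u) (by simpa using hN) (x := x) (y := y)
    (by simp [hx]) (by simp [hy]) (u := []) (mem0 A)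
    (S o ⟨[], x.map bc⟩ ⟨[], y.map bc⟩ ⟨[], []⟩ ⟨[], []⟩)
    (fun i => rfl) rfl rfl rfl rfl hnr
  rw [List.length_replicate, mulBits_full hx hy] at h1
  rw [List.length_replicate] at hT
  have h2 : Run (dc A) ((En A).mulP (cf nr))
      ⟨mem0 A, S o ⟨[], x.map bc⟩ ⟨[], y.map bc⟩ ⟨[], []⟩ ⟨[], []⟩⟩
      ((callC A + 30) * (T + N))
      ⟨mem0 A, S o ⟨[], []⟩ ⟨[], []⟩ ⟨[], (bits (2 * N) (val x * val y)).map bc⟩
        ⟨List.replicate T .u ++ [], []⟩⟩ := by
    refine Run.to h1 le_rfl ?_
    have e : ∀ (a b c e : Zip (Ac A)),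
        update (update (update (update (S o ⟨[], x.map bc⟩ ⟨[], y.map bc⟩ ⟨[], []⟩ ⟨[], []⟩)
          (kf .opX) a) (kf .opY) b) (kf .res) c) (kf .clk) e = S o a b c e := by
      intro a b c e
      simp only [upd_opX, upd_opY, upd_res, upd_clk]
    exact congrArg (Store.mk (mem0 A)) (e _ _ _ _)
  have h3 := run_clr (d := dc A) (kf .clk) (mem0 A) (S o ⟨[], []⟩ ⟨[], []⟩
    ⟨[], (bits (2 * N) (val x * val y)).map bc⟩ ⟨List.replicate T .u ++ [], []⟩)
  rw [upd_clk] at h3
  refine Run.mono (Run.seq h2 h3) ?_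
  have h4 : (callC A + 30) * (T + N) ≤ (callC A + 30) * (mulTime A N + N) :=
    Nat.mul_le_mul_left _ (by omega)
  have h5 : (callC A + 32) * (mulTime A N + N) = (callC A + 30) * (mulTime A N + N) +
    2 * (mulTime A N + N) := by ring
  omega

end

/-- Append the product of the word at the head of `f` with the constant to `g`. -/
noncomputable def mulw1 (A : MTM) (f g : CF) : PC A :=
  .seq (fillN (kf .opX) (rf .b) (rd (dc A) (cf f)))
  (.seq (copyN (dc A) (cf f) (kf .opX) (rf .b))
  (.seq (act (kf .opX) .rew)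
  (.seq (fillN (kf .opY) (rf .b) (rd (dc A) (cf .cst)))
  (.seq (copyN (dc A) (cf .cst) (kf .opY) (rf .b))
  (.seq (act (cf .cst) .rew)
  (.seq (act (kf .opY) .rew)
  (.seq (call A (.r .b2))
  (.seq (rN (kf .res) (rf .q))
  (.seq (copyN (dc A) (kf .res) (cf g) (rf .b))
  (clr (kf .res)))))))))))

/-- What is needed of the files. -/
structure WI (P : CPar) (c : ℤ) (o : CF → Zip (Ac A)) : Prop where
  r : ∀ k, k ≠ RN.nw → o (.r k) = ⟨[], List.replicate (rv P k) .u⟩
  c : o .cst = ⟨[], (wz P.b c).map bc⟩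

/-- Cost of one word. -/
noncomputable def tw (A : MTM) (P : CPar) : ℕ := (callC A + 70) * (mulTime A (2 * P.b) + 2 * P.b)

section
variable [DecidableEq (FT A)]

theorem run_mulw1 (hA : Multiplies A) {P : CPar} (hP : P.Ok) {f g : CF} (hfg : f ≠ g)
    (hf : ∀ k, f ≠ .r k) (hg : ∀ k, g ≠ .r k) (hfc : f ≠ .cst) (x c : ℤ)
    {u v l : List (Ac A)} {o : CF → Zip (Ac A)} (ho : WI P c o)
    (h1 : o f = ⟨u, (wz P.b x).map bc ++ v⟩) (h2 : o g = ⟨l, []⟩) :
    Run (dc A) (mulw1 A f g) ⟨mem0 A, S0 o⟩ (tw A P)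
      ⟨mem0 A, S0 (update (update o f ⟨((wz P.b x).map bc).reverse ++ u, v⟩) g
        ⟨((wz P.b (sg P.b x * sg P.b c / 2 ^ P.s)).map bc).reverse ++ l, []⟩)⟩ := by
  have hb := hP.hb
  have hs := hP.hs
  have hw := hP.hw
  have hb1 : 1 ≤ P.b := by omega
  have hrb : o (.r .b) = ⟨[], List.replicate P.b .u⟩ := ho.r .b (by simp)
  have hrq : o (.r .q) = ⟨[], List.replicate (3 * P.b - P.s) .u⟩ := ho.r .q (by simp)
  have hrb2 : o (.r .b2) = ⟨[], List.replicate (2 * P.b) .u⟩ := ho.r .b2 (by simp)
  have hoc := ho.c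
  -- the first operand
  have s1 := run_fillN (d := dc A) (g := kf .opX) (r := rf .b) (s := rd (dc A) (cf f)) (by simp)
    (a := bc (sgb P.b x)) (u := []) (v := []) (R := List.replicate P.b .u) (m := mem0 A)
    (z := S0 o) rfl hrb
    (fun y y' => by
      rw [rd, Function.update_of_ne (by simpa using hf .b), Function.update_of_ne (by simp)]
      simp only [S_cf, h1, wz_eq_cons hb1]
      rfl)
  simp only [upd_opX, List.length_replicate, List.append_nil, List.drop_nil] at s1
  have s2 := run_copyN (d := dc A) (e := dc A) (f := cf f) (g := kf .opX) (r := rf .b)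
    (by simp) (by simpa using hf .b) (by simp) (x := (wz P.b x).map bc) (y := v) (u := u)
    (v := List.replicate P.b (bc (sgb P.b x))) (R := List.replicate P.b .u) (m := mem0 A)
    (z := S o ⟨List.replicate P.b (bc (sgb P.b x)), []⟩ ⟨[], []⟩ ⟨[], []⟩ ⟨[], []⟩)
    (by simp [length_wz]) h1 rfl hrb
  simp only [upd_opX, upd_cf, List.length_replicate] at s2
  have e1 : (((wz P.b x).map bc).reverse ++ List.replicate P.b (bc (A := A) (sgb P.b x))).reverse =
      (wz (2 * P.b) (sg P.b x)).map bc := by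
    have e := sext_eq hb1 P.b x
    rw [← two_mul] at e
    rw [← e, List.reverse_append, List.reverse_replicate, List.reverse_reverse, List.map_append,
      List.map_replicate]
  set o1 := update o f ⟨((wz P.b x).map bc).reverse ++ u, v⟩ with ho1
  have s3 := run_act' (d := dc A) (f := kf .opX) (o := .rew)
    (v := ⟨[], (wz (2 * P.b) (sg P.b x)).map bc⟩) (m := mem0 A)
    (z := S o1 ⟨((wz P.b x).map bc).reverse ++ List.replicate P.b (bc (sgb P.b x)), []⟩
      ⟨[], []⟩ ⟨[], []⟩ ⟨[], []⟩) (by rw [S_opX, app_rew, e1, List.append_nil])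
  simp only [upd_opX] at s3
  -- the second operand
  have hoc1 : o1 .cst = ⟨[], (wz P.b c).map bc⟩ := by
    rw [ho1, Function.update_of_ne hfc.symm, hoc]
  have hrb1 : o1 (.r .b) = ⟨[], List.replicate P.b .u⟩ := by
    rw [ho1, Function.update_of_ne (hf _).symm, hrb]
  have s4 := run_fillN (d := dc A) (g := kf .opY) (r := rf .b) (s := rd (dc A) (cf .cst))
    (by simp) (a := bc (sgb P.b c)) (u := []) (v := []) (R := List.replicate P.b .u)
    (m := mem0 A) (z := S o1 ⟨[], (wz (2 * P.b) (sg P.b x)).map bc⟩ ⟨[], []⟩ ⟨[], []⟩ ⟨[], []⟩)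
    rfl hrb1
    (fun y y' => by
      rw [rd, Function.update_of_ne (by simp), Function.update_of_ne (by simp)]
      simp only [S_cf, hoc1, wz_eq_cons hb1]
      rfl)
  simp only [upd_opY, List.length_replicate, List.append_nil, List.drop_nil] at s4
  have s5 := run_copyN (d := dc A) (e := dc A) (f := cf .cst) (g := kf .opY) (r := rf .b)
    (by simp) (by simp) (by simp) (x := (wz P.b c).map bc) (y := []) (u := [])
    (v := List.replicate P.b (bc (sgb P.b c))) (R := List.replicate P.b .u) (m := mem0 A)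
    (z := S o1 ⟨[], (wz (2 * P.b) (sg P.b x)).map bc⟩
      ⟨List.replicate P.b (bc (sgb P.b c)), []⟩ ⟨[], []⟩ ⟨[], []⟩)
    (by simp [length_wz]) (by rw [S_cf, hoc1, List.append_nil]) rfl hrb1
  simp only [upd_opY, upd_cf, List.length_replicate, List.append_nil] at s5
  have s6 := run_act' (d := dc A) (f := cf .cst) (o := .rew) (v := ⟨[], (wz P.b c).map bc⟩)
    (m := mem0 A) (z := S (update o1 .cst ⟨((wz P.b c).map bc).reverse, []⟩)
      ⟨[], (wz (2 * P.b) (sg P.b x)).map bc⟩
      ⟨((wz P.b c).map bc).reverse ++ List.replicate P.b (bc (sgb P.b c)), []⟩ ⟨[], []⟩ ⟨[], []⟩)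
    (by rw [S_cf, Function.update_self, app_rew, List.reverse_reverse, List.append_nil])
  simp only [upd_cf, Function.update_idem] at s6
  rw [upd_self o1 .cst _ hoc1] at s6
  have e2 : (((wz P.b c).map bc).reverse ++ List.replicate P.b (bc (A := A) (sgb P.b c))).reverse =
      (wz (2 * P.b) (sg P.b c)).map bc := by
    have e := sext_eq hb1 P.b c
    rw [← two_mul] at e
    rw [← e, List.reverse_append, List.reverse_replicate, List.reverse_reverse, List.map_append,
      List.map_replicate]
  have s7 := run_act' (d := dc A) (f := kf .opY) (o := .rew)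
    (v := ⟨[], (wz (2 * P.b) (sg P.b c)).map bc⟩) (m := mem0 A)
    (z := S o1 ⟨[], (wz (2 * P.b) (sg P.b x)).map bc⟩
      ⟨((wz P.b c).map bc).reverse ++ List.replicate P.b (bc (sgb P.b c)), []⟩ ⟨[], []⟩ ⟨[], []⟩)
    (by rw [S_opY, app_rew, e2, List.append_nil])
  simp only [upd_opY] at s7
  -- the call
  have s8 := run_call hA (nr := .r .b2) (N := 2 * P.b) (by omega) (x := wz (2 * P.b) (sg P.b x))
    (y := wz (2 * P.b) (sg P.b c)) (length_wz _ _) (length_wz _ _) o1
    (by rw [ho1, Function.update_of_ne (hf _).symm, hrb2])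
  have e3 : 2 * (2 * P.b) = 4 * P.b := by ring
  rw [e3] at s8
  set res := (bits (4 * P.b) (val (wz (2 * P.b) (sg P.b x)) * val (wz (2 * P.b) (sg P.b c)))).map
    (bc (A := A)) with hres
  have hlen : res.length = 4 * P.b := by rw [hres, List.length_map, length_bits]
  -- the window
  have e4 : res = res.take (3 * P.b - P.s) ++ res.drop (3 * P.b - P.s) :=
    (List.take_append_drop _ _).symm
  have s9 := run_rN (d := dc A) (f := kf .res) (r := rf .q) (by simp)
    (x := res.take (3 * P.b - P.s)) (u := []) (v := res.drop (3 * P.b - P.s))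
    (R := List.replicate (3 * P.b - P.s) .u) (m := mem0 A)
    (z := S o1 ⟨[], []⟩ ⟨[], []⟩ ⟨[], res⟩ ⟨[], []⟩)
    (by simp [hlen]; omega) (by rw [S_res]; rw [← e4])
    (by
      change o1 _ = _
      rw [ho1, Function.update_of_ne (hf _).symm, hrq])
  simp only [upd_res, List.length_replicate, List.append_nil] at s9
  have e5 : (res.drop (3 * P.b - P.s)).take P.b =
      (wz P.b (sg P.b x * sg P.b c / 2 ^ P.s)).map bc := by
    rw [hres, ← List.map_drop, ← List.map_take, mulw_val (by omega)]
  have e6 : res.drop (3 * P.b - P.s) = (wz P.b (sg P.b x * sg P.b c / 2 ^ P.s)).map bc ++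
      (res.drop (3 * P.b - P.s)).drop P.b := by
    rw [← e5, List.take_append_drop]
  have s10 := run_copyN (d := dc A) (e := dc A) (f := kf .res) (g := cf g) (r := rf .b)
    (by simp) (by simp) (by simpa using hg .b)
    (x := (wz P.b (sg P.b x * sg P.b c / 2 ^ P.s)).map bc)
    (y := (res.drop (3 * P.b - P.s)).drop P.b) (u := (res.take (3 * P.b - P.s)).reverse)
    (v := l) (R := List.replicate P.b .u) (m := mem0 A)
    (z := S o1 ⟨[], []⟩ ⟨[], []⟩
      ⟨(res.take (3 * P.b - P.s)).reverse, res.drop (3 * P.b - P.s)⟩ ⟨[], []⟩)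
    (by simp [length_wz]) (by rw [S_res, ← e6])
    (by rw [S_cf, ho1, Function.update_of_ne hfg.symm, h2]) hrb1
  simp only [upd_res, upd_cf, List.length_replicate] at s10
  have s11 := run_clr (d := dc A) (kf .res) (mem0 A)
    (S (update o1 g ⟨((wz P.b (sg P.b x * sg P.b c / 2 ^ P.s)).map bc).reverse ++ l, []⟩)
      ⟨[], []⟩ ⟨[], []⟩
      ⟨((wz P.b (sg P.b x * sg P.b c / 2 ^ P.s)).map bc).reverse ++
        (res.take (3 * P.b - P.s)).reverse, (res.drop (3 * P.b - P.s)).drop P.b⟩ ⟨[], []⟩)
  simp only [upd_res] at s11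
  refine Run.mono (Run.seq s1 (Run.seq s2 (Run.seq s3 (Run.seq s4 (Run.seq s5 (Run.seq s6
    (Run.seq s7 (Run.seq s8 (Run.seq s9 (Run.seq s10 s11)))))))))) ?_
  have e7 : tw A P = (callC A + 32) * (mulTime A (2 * P.b) + 2 * P.b) +
      38 * (mulTime A (2 * P.b) + 2 * P.b) := by unfold tw; ring
  rw [e7]
  omega

end

/-- The current cell of `f` is multiplied with the constant. -/
noncomputable def mulwF (A : MTM) (f : CF) : PC A :=
  .seq (forR (rf .nw) (mulw1 A f (.h 0)))
  (.seq (lN (cf f) (rf .ell))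
  (.seq (act (cf (.h 0)) .rew)
  (.seq (copyN (dc A) (cf (.h 0)) (cf f) (rf .ell))
  (.seq (lN (cf f) (rf .ell))
  (clr (cf (.h 0)))))))

/-- Multiply the current cell of `x` with the constant `cst`. -/
noncomputable def mulw (A : MTM) : PC A := mulwF A .x

/-- Cost of the product of a cell with a constant. -/
noncomputable def tmw (A : MTM) (P : CPar) : ℕ :=
  P.nw * ((callC A + 100) * (mulTime A (2 * P.b) + 2 * P.b))

theorem length_cellB (P : CPar) (x : Cell) : (cellB P x).length = P.ell := by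
  simp [cellB, wds, length_wz, CPar.ell]

theorem map_cellB {α : Type} (P : CPar) (x : Cell) (h : Bool → α) :
    (cellB P x).map h =
      (List.range P.nw).flatMap fun i => (wz P.b (x (P.nw - 1 - i))).map h := by
  rw [cellB, wds, List.map_flatMap]

section
variable [DecidableEq (FT A)]

theorem run_mulwF (hA : Multiplies A) {P : CPar} (hP : P.Ok) {f : CF}
    (hf : ∀ k, f ≠ .r k) (hfh : f ≠ .h 0) (hfc : f ≠ .cst) (x : Cell) (c : ℤ)
    {u v : List (Ac A)} {o : CF → Zip (Ac A)} (ho : WI P c o)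
    (hn : o (.r .nw) = ⟨[], List.replicate P.nw .u⟩)
    (h1 : o f = ⟨u, (cellB P x).map bc ++ v⟩) (h2 : o (.h 0) = ⟨[], []⟩) :
    Run (dc A) (mulwF A f) ⟨mem0 A, S0 o⟩ (tmw A P)
      ⟨mem0 A, S0 (update o f ⟨u, (cellB P (cMulw P c x)).map bc ++ v⟩)⟩ := by
  have hb := hP.hb
  have hY := hP.hY
  have hnw : 1 ≤ P.nw := by unfold CPar.nw; omega
  have hre : o (.r .ell) = ⟨[], List.replicate P.ell .u⟩ := ho.r .ell (by simp)
  have s1 := run_wloop (A := A) (p := mulw1 A f (.h 0)) (f := f) (g := .h 0) (q := .r .nw) hfh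
    (hf _) (by simp) (R := List.replicate P.nw .u) (m := mem0 A)
    (w := fun i => (wz P.b (x (P.nw - 1 - i))).map bc)
    (w' := fun i => (wz P.b (cMulw P c x (P.nw - 1 - i))).map bc) (WI P c)
    (fun o k v hk ho => ⟨fun k' hk' => by
      rw [Function.update_of_ne, ho.r k' hk']
      rcases hk with rfl | rfl | rfl
      · exact (hf _).symm
      · simp
      · simpa using hk',
      by
      rw [Function.update_of_ne, ho.c]
      rcases hk with rfl | rfl | rfl
      · exact hfc.symm
      · simp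
      · simp⟩) (tw A P)
    (fun i _ u v l o ho h1 h2 => run_mulw1 hA hP hfh hf (by simp) hfc
      (x (P.nw - 1 - i)) c ho h1 h2)
    (u := u) (v := v) (l := []) ho (by rw [List.length_replicate, ← map_cellB, h1]) h2 hn
  rw [List.length_replicate, ← map_cellB, ← map_cellB, List.append_nil] at s1
  have s2 := run_lN (d := dc A) (f := cf f) (r := rf .ell) (by simpa using hf .ell)
    (x := ((cellB P x).map bc).reverse) (u := u) (v := v) (R := List.replicate P.ell .u)
    (m := mem0 A) (z := S0 (update (update o f ⟨((cellB P x).map bc).reverse ++ u, v⟩) (.h 0)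
      ⟨((cellB P (cMulw P c x)).map bc).reverse, []⟩)) (by simp [length_cellB])
    (by rw [S0_cf, Function.update_of_ne hfh, Function.update_self])
    (by rw [S0_cf, Function.update_of_ne (by simp), Function.update_of_ne (hf _).symm, hre])
  simp only [upd_cf, List.length_replicate, List.reverse_reverse] at s2
  rw [upd_swap hfh] at s2
  rw [← h1, Function.update_eq_self] at s2
  have s3 := run_act' (d := dc A) (f := cf (.h 0)) (o := .rew)
    (v := ⟨[], (cellB P (cMulw P c x)).map bc⟩) (m := mem0 A)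
    (z := S0 (update o (.h 0) ⟨((cellB P (cMulw P c x)).map bc).reverse, []⟩))
    (by rw [S0_cf, Function.update_self, app_rew, List.reverse_reverse, List.append_nil])
  simp only [upd_cf, Function.update_idem] at s3
  have s4 := run_copyN' (d := dc A) (e := dc A) (f := cf (.h 0)) (g := cf f) (r := rf .ell)
    (by simpa using hfh.symm) (by simp) (by simpa using hf .ell)
    (x := (cellB P (cMulw P c x)).map bc) (y := []) (u := []) (v := u)
    (w := (cellB P x).map bc ++ v) (R := List.replicate P.ell .u) (m := mem0 A)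
    (z := S0 (update o (.h 0) ⟨[], (cellB P (cMulw P c x)).map bc⟩))
    (by simp [length_cellB]) (by rw [S0_cf, Function.update_self, List.append_nil])
    (by rw [S0_cf, Function.update_of_ne hfh, h1])
    (by rw [S0_cf, Function.update_of_ne (by simp), hre])
  have e1 : ((cellB P x).map bc ++ v).drop P.ell = v := by
    rw [List.drop_append_of_le_length (by simp [length_cellB]),
      List.drop_of_length_le (by simp [length_cellB]), List.nil_append]
  simp only [upd_cf, List.length_replicate, Function.update_idem, List.append_nil] at s4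
  rw [e1] at s4
  have s5 := run_lN (d := dc A) (f := cf f) (r := rf .ell) (by simpa using hf .ell)
    (x := ((cellB P (cMulw P c x)).map bc).reverse) (u := u) (v := v)
    (R := List.replicate P.ell .u) (m := mem0 A)
    (z := S0 (update (update o (.h 0) ⟨((cellB P (cMulw P c x)).map bc).reverse, []⟩) f
      ⟨((cellB P (cMulw P c x)).map bc).reverse ++ u, v⟩)) (by simp [length_cellB])
    (by rw [S0_cf, Function.update_self])
    (by rw [S0_cf, Function.update_of_ne (hf _).symm, Function.update_of_ne (by simp), hre])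
  simp only [upd_cf, List.length_replicate, List.reverse_reverse, Function.update_idem] at s5
  have s6 := run_clr (d := dc A) (cf (.h 0)) (mem0 A)
    (S0 (update (update o (.h 0) ⟨((cellB P (cMulw P c x)).map bc).reverse, []⟩) f
      ⟨u, (cellB P (cMulw P c x)).map bc ++ v⟩))
  simp only [upd_cf] at s6
  have e2 : update (update (update o (.h 0) ⟨((cellB P (cMulw P c x)).map bc).reverse, []⟩) f
      ⟨u, (cellB P (cMulw P c x)).map bc ++ v⟩) (.h 0) ⟨[], []⟩ =
      update o f ⟨u, (cellB P (cMulw P c x)).map bc ++ v⟩ := by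
    rw [upd_swap hfh.symm]
    congr 1
    rw [← h2, Function.update_eq_self]
  rw [e2] at s6
  refine Run.mono (Run.seq s1 (Run.seq s2 (Run.seq s3 (Run.seq s4 (Run.seq s5 s6))))) ?_
  have e3 : P.ell = P.nw * P.b := rfl
  have e4 : tmw A P = P.nw * tw A P + P.nw * (30 * (mulTime A (2 * P.b) + 2 * P.b)) := by
    unfold tmw tw
    ring
  have e5 : P.nw * (60 * P.b) ≤ P.nw * (30 * (mulTime A (2 * P.b) + 2 * P.b)) :=
    Nat.mul_le_mul_left _ (by omega)
  have e6 : P.nw * (60 * P.b) = 60 * P.ell := by rw [e3]; ring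
  have e7 : P.nw * 1 ≤ P.ell := by
    rw [e3]
    exact Nat.mul_le_mul_left _ (by omega)
  have e8 : P.nw * (tw A P + 2) = P.nw * tw A P + 2 * P.nw := by ring
  rw [e8]
  omega

/-- **Product of the current cell with the constant.** -/
theorem run_mulw (hA : Multiplies A) {P : CPar} (hP : P.Ok) (D : DS) (c : Cell) (r : List Cell)
    (hX : D.X.r = c :: r) :
    Run (dc A) (mulw A) (stc P D) (tmw A P)
      (stc P { D with X := ⟨D.X.l, cMulw P D.cst c :: r⟩ }) := by
  have h1 := run_mulwF (f := .x) hA hP (by simp) (by simp) (by simp) c D.cst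
    (u := (D.X.l.flatMap fun c => (cellB P c).reverse).map bc) (v := (r.flatMap (cellB P)).map bc)
    (o := fc P D) ⟨fun k _ => rfl, rfl⟩ rfl
    (by
      change zc P D.X = _
      rw [zc, hX, List.flatMap_cons, List.map_append]) rfl
  rw [← ft_eq] at h1
  refine Run.to h1 le_rfl ?_
  rw [stc, ft_eq]
  congr 2
  funext k
  cases k <;> simp [fc, zc]

end

end Vale.Agent.P338.R3.H968
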