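import Vale.Agent.P338.R3.H968.Mulp2
import Vale.Agent.P338.R3.H778.MulpB
import Vale.Agent.P338.R3.H525.Unpk

/-!
P338-D: the product of two cells.
-/

namespace Vale.Agent.P338.R3.H968

open Vale.Agent.P338.R2.H898 hiding val
open Prog
open Vale.Agent.P338.R2.H968
open Vale.Agent.P338.R2.H784
open Vale.Agent.P338.R2.H968.CallEnv (mem0 callC)
open Vale.Agent.P338.R2.H778 (bits val length_bits bits_val bits_add bits_mod)
open Function (update)

variable {A : MTM}

theorem pk_eq {b : ℕ} (hb : 1 ≤ b) (n : ℕ) (x : Cell) :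
    pk b n x = wz ((3 * b + 1) * n) (H778.pk (3 * b + 1) n fun j => sg b (x j) + 2 ^ b) := by
  rw [← H778.flatMap_pkW hb]
  refine List.flatMap_congr fun i _ => ?_
  rw [H778.pkW]
  conv_rhs => rw [wz_eq_cons hb]
  rw [wz_eq_cons hb]
  rfl

theorem kb_eq (b n : ℕ) :
    kb b n = wz ((3 * b + 1) * n) (H778.pk (3 * b + 1) n fun _ => 2 ^ b) := H778.flatMap_pB b n

theorem kc_eq (b n : ℕ) :
    kc b n = wz ((3 * b + 1) * n) (H778.pk (3 * b + 1) n fun _ => 2 ^ (3 * b + 1 - 1)) := by
  rw [← H778.flatMap_pG]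
  refine List.flatMap_congr fun i _ => ?_
  rw [H778.pG, ← List.replicate_add]
  congr 2
  ring

theorem pX_eq {P : CPar} (hb : 1 ≤ P.b) (x : Cell) :
    pX P x = wz (nb P) (H778.pk (3 * P.b + 1) P.nw fun j => sg P.b (x j)) := by
  unfold pX
  apply wz_congr
  have h1 := val_wz (nb P) (H778.pk (3 * P.b + 1) P.nw fun j => sg P.b (x j) + 2 ^ P.b)
  have h2 := val_wz (nb P) (H778.pk (3 * P.b + 1) P.nw fun _ => 2 ^ P.b)
  rw [pk_eq hb, kb_eq]
  have h3 := h1.sub h2
  rw [← H778.pk_sub] at h3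
  simp only [add_sub_cancel_right] at h3
  exact h3

theorem pR_eq' {P : CPar} (hb : 1 ≤ P.b) (x y : Cell) :
    pR P x y = wz (nb P) (H778.pk (3 * P.b + 1) P.nw (fun j => sg P.b (x j)) *
      H778.pk (3 * P.b + 1) P.nw (fun j => sg P.b (y j)) +
        H778.pk (3 * P.b + 1) P.nw fun _ => 2 ^ (3 * P.b + 1 - 1)) := by
  unfold pR
  apply wz_congr
  have e1 : (bits (2 * nb P) (val (pX P x) * val (pX P y))).drop (nb P) =
      wz (nb P) ((val (pX P x) : ℤ) * (val (pX P y) : ℤ)) := by
    rw [two_mul, bits_add, List.drop_append_of_le_length (by simp),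
      List.drop_of_length_le (by simp), List.nil_append, ← wz_nat]
    push_cast
    rfl
  rw [e1, kc_eq, pX_eq hb, pX_eq hb]
  have h1 := val_wz (nb P) (H778.pk (3 * P.b + 1) P.nw fun j => sg P.b (x j))
  have h2 := val_wz (nb P) (H778.pk (3 * P.b + 1) P.nw fun j => sg P.b (y j))
  have h3 := val_wz (nb P) (H778.pk (3 * P.b + 1) P.nw fun _ => 2 ^ (3 * P.b + 1 - 1))
  exact ((val_wz _ _).trans (h1.mul h2)).add h3

/-- The slots of the biased product. -/
theorem pR_eq {P : CPar} (hP : P.Ok) (x y : Cell) : ∃ pre post : ℕ → List Bool,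
    (∀ i, (pre i).length = 2 * P.b + 1 - P.s) ∧ (∀ i, (post i).length = P.s) ∧
    pR P x y = (List.range P.nw).flatMap fun i =>
      pre i ++ (wz P.b (cMulp P x y (P.nw - 1 - i)) ++ post i) := by
  have hb := hP.hb
  have hs := hP.hs
  have hw := hP.hw
  have hY := hP.hY
  have hb1 : 1 ≤ P.b := by omega
  have hnw : 1 ≤ P.nw := by unfold CPar.nw; omega
  obtain ⟨Z, hZ⟩ : ∃ Z, Z = H778.pk (3 * P.b + 1) P.nw (fun j => sg P.b (x j)) *
      H778.pk (3 * P.b + 1) P.nw (fun j => sg P.b (y j)) +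
        H778.pk (3 * P.b + 1) P.nw fun _ => 2 ^ (3 * P.b + 1 - 1) := ⟨_, rfl⟩
  obtain ⟨N, hN⟩ : ∃ N : ℕ, N = (Z % 2 ^ (nb P)).toNat := ⟨_, rfl⟩
  have hpos : (0 : ℤ) < 2 ^ (nb P) := by positivity
  have hN' : (N : ℤ) = Z % 2 ^ (nb P) := by
    rw [hN]
    exact Int.toNat_of_nonneg (Int.emod_nonneg _ hpos.ne')
  have hNlt : N < 2 ^ ((3 * P.b + 1) * P.nw) := by
    have h1 : (N : ℤ) < 2 ^ (nb P) := by
      rw [hN']
      exact Int.emod_lt_of_pos _ hpos
    exact_mod_cast h1
  have hNZ : (N : ℤ) ≡ Z [ZMOD 2 ^ ((3 * P.b + 1) * P.nw)] := by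
    rw [hN']
    exact Int.mod_modEq _ _
  have e1 : pR P x y = bits ((3 * P.b + 1) * P.nw) N := by
    rw [pR_eq' hb1, ← hZ]
    exact wz_eq_bits hNZ.symm
  obtain ⟨V, hV⟩ : ∃ V : ℕ → ℕ, V = fun k => N / 2 ^ ((3 * P.b + 1) * k) % 2 ^ (3 * P.b + 1) :=
    ⟨_, rfl⟩
  rw [H778.bits_eq_blk, ← hV] at e1
  have hk : ∀ k < P.nw, H778.cut P.b P.s (bits (3 * P.b + 1) (V k)) =
      wz P.b (cMulp P x y k) := by
    intro k hk
    rw [H778.cut_bits (by omega), hV]
    exact (H778.cMulp_bits hP (T := 3 * P.b + 1) (N := N) (by omega) x y hNlt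
      (hNZ.trans (by rw [hZ])) hk).symm
  refine ⟨fun i => (bits (3 * P.b + 1) (V (P.nw - 1 - i))).take (2 * P.b + 1 - P.s),
    fun i => ((bits (3 * P.b + 1) (V (P.nw - 1 - i))).drop (2 * P.b + 1 - P.s)).drop P.b,
    fun i => ?_, fun i => ?_, ?_⟩
  · rw [List.length_take, length_bits]
    omega
  · rw [List.length_drop, List.length_drop, length_bits]
    omega
  · rw [e1, H778.blk]
    refine List.flatMap_congr fun i _ => ?_
    rw [← hk _ (by omega), H778.cut]
    have e2 : 2 * P.b - P.s + 1 = 2 * P.b + 1 - P.s := by omega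
    rw [e2, List.take_append_drop, List.take_append_drop]

/-- The current cell is multiplied with the top of the stack `b` (popped). -/
noncomputable def mulp (A : MTM) [DecidableEq (FT A)] : PC A := .seq (mulp0 A) (unpk A)

/-- Cost of the product of two cells. -/
noncomputable def tmp (A : MTM) (P : CPar) : ℕ := (callC A + 210) * (mulTime A (nb P) + nb P)

section
variable [DecidableEq (FT A)]

/-- **Product of two cells.** -/
theorem run_mulp (hA : Multiplies A) {P : CPar} (hP : P.Ok) (D : DS) (c e : Cell)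
    (r B : List Cell) (hX : D.X.r = c :: r) (hB : D.B = e :: B) :
    Run (dc A) (mulp A) (stc P D) (tmp A P)
      (stc P { D with X := ⟨D.X.l, cMulp P c e :: r⟩, B := B }) := by
  obtain ⟨pre, post, h1, h2, h3⟩ := pR_eq hP c e
  have s1 := run_mulp0 hA hP D c e r B hX hB
  have s2 := run_unpk (A := A) hP (m := mem0 A)
    (o := update (fc P { D with B := B }) (.h 1) ⟨[], (pR P c e).map bc⟩)
    (fun k => by rw [Function.update_of_ne (by simp)]; rfl) pre post h1 h2 c (cMulp P c e)
    (u := (D.X.l.flatMap fun c => (cellB P c).reverse).map bc) (v := (r.flatMap (cellB P)).map bc)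
    (by
      rw [Function.update_of_ne (by simp)]
      change zc P D.X = _
      rw [zc, hX, List.flatMap_cons, List.map_append])
    (by rw [Function.update_self, h3])
    (by rw [Function.update_of_ne (by simp)]; rfl)
  refine Run.to (Run.seq s1 s2) ?_ ?_
  · unfold tmp
    have e1 : (callC A + 210) * (mulTime A (nb P) + nb P) =
      (callC A + 170) * (mulTime A (nb P) + nb P) + 40 * (mulTime A (nb P) + nb P) := by ring
    have e2 : 40 * ((3 * P.b + 1) * P.nw) = 40 * nb P := rfl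
    rw [e1, e2]
    omega
  · rw [Function.update_idem, stc, ft_eq]
    congr 2
    funext k
    cases k with
    | h i =>
      rw [Function.update_of_ne (by simp)]
      by_cases hi : i = 1
      · subst hi
        rw [Function.update_self]
        rfl
      · rw [Function.update_of_ne (by simpa using hi)]
        rfl
    | _ => simp [fc, zc]

end

end Vale.Agent.P338.R3.H968
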