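import Vale.Agent.P338.R2.H968.Ruler
import Vale.Agent.P338.R2.H968.PadCall
import Vale.Agent.P338.R2.H784.Lib

/-!
P338-D: moving and copying along rulers.
-/

namespace Vale.Agent.P338.R3.H968

open Vale.Agent.P338.R2.H898 Prog
open Vale.Agent.P338.R2.H968
open Function (update)

variable {M F α : Type} [DecidableEq F] {d : α}

theorem getD_map_take_succ {x : List α} {i : ℕ} (hi : i < x.length) (u : List α) :
    x[i] :: ((x.take i).reverse ++ u) = (x.take (i + 1)).reverse ++ u := by
  rw [List.take_succ_eq_append_getElem hi, List.reverse_append]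
  rfl

theorem upd_swap {f r : F} (h : f ≠ r) (z : F → Zip α) (a b c : Zip α) :
    update (update (update z f a) r b) f c = update (update z f c) r b := by
  rw [Function.update_comm h, Function.update_idem, Function.update_comm h.symm]

/-- Move left on `f` by the length of `r`. -/
def lN (f r : F) : Prog M F α := forR r (act f .left)

theorem run_lN {f r : F} (hfr : f ≠ r) {x u v R : List α} {m : M} {z : F → Zip α}
    (hlen : x.length = R.length) (hf : z f = ⟨x ++ u, v⟩) (hr : z r = ⟨[], R⟩) :
    Run d (lN f r) ⟨m, z⟩ (R.length * 3 + 2) ⟨m, update z f ⟨u, x.reverse ++ v⟩⟩ := by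
  have h1 := run_forR (d := d) (r := r) (p := act f .left) (R := R) (m := m)
    (fun i => update z f ⟨x.drop i ++ u, (x.take i).reverse ++ v⟩) 1
    (fun i => by rw [Function.update_of_ne hfr.symm, hr])
    (fun i hi => by
      rw [← hlen] at hi
      have h2 := run_act' (d := d) (f := f) (o := .left)
        (v := ⟨x.drop (i + 1) ++ u, (x.take (i + 1)).reverse ++ v⟩) (m := m)
        (z := update (update z f ⟨x.drop i ++ u, (x.take i).reverse ++ v⟩) r (zipAt R i))
        (by
          rw [Function.update_of_ne hfr, Function.update_self, List.drop_eq_getElem_cons hi,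
            ← getD_map_take_succ hi]
          rfl)
      rw [upd_swap hfr] at h2
      exact h2)
  simp only [List.take_zero, List.reverse_nil, List.nil_append, List.drop_zero] at h1
  rw [upd_self z f _ hf, ← hlen, List.take_length, List.drop_length, List.nil_append, hlen] at h1
  exact h1.mono (by omega)

/-- Move right on `f` by the length of `r`. -/
def rN (f r : F) : Prog M F α := forR r (act f .right)

theorem run_rN {f r : F} (hfr : f ≠ r) {x u v R : List α} {m : M} {z : F → Zip α}
    (hlen : x.length = R.length) (hf : z f = ⟨u, x ++ v⟩) (hr : z r = ⟨[], R⟩) :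
    Run d (rN f r) ⟨m, z⟩ (R.length * 3 + 2) ⟨m, update z f ⟨x.reverse ++ u, v⟩⟩ := by
  have h1 := run_forR (d := d) (r := r) (p := act f .right) (R := R) (m := m)
    (fun i => update z f ⟨(x.take i).reverse ++ u, x.drop i ++ v⟩) 1
    (fun i => by rw [Function.update_of_ne hfr.symm, hr])
    (fun i hi => by
      rw [← hlen] at hi
      have h2 := run_act' (d := d) (f := f) (o := .right)
        (v := ⟨(x.take (i + 1)).reverse ++ u, x.drop (i + 1) ++ v⟩) (m := m)
        (z := update (update z f ⟨(x.take i).reverse ++ u, x.drop i ++ v⟩) r (zipAt R i))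
        (by
          rw [Function.update_of_ne hfr, Function.update_self, List.drop_eq_getElem_cons hi,
            ← getD_map_take_succ hi]
          rfl)
      rw [upd_swap hfr] at h2
      exact h2)
  simp only [List.take_zero, List.reverse_nil, List.nil_append, List.drop_zero] at h1
  rw [upd_self z f _ hf, ← hlen, List.take_length, List.drop_length, List.nil_append, hlen] at h1
  exact h1.mono (by omega)

/-- Write a symbol and move right. -/
def put1 (g : F) (s : (F → Option α) → α) : Prog M F α :=
  .seq (.prim fun m x => (m, some (g, .write (s x)))) (act g .right)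

theorem run_put1 {g : F} {s : (F → Option α) → α} {a : α} {u v : List α} {m : M}
    {z : F → Zip α} (hg : z g = ⟨u, v⟩) (ha : s (fun f => (z f).peek) = a) :
    Run d (put1 g s) ⟨m, z⟩ 2 ⟨m, update z g ⟨a :: u, v.tail⟩⟩ := by
  have h1 : Run d (.prim fun m x => (m, some (g, .write (s x))) : Prog M F α) ⟨m, z⟩ 1
      ⟨m, update z g ⟨u, a :: v.tail⟩⟩ := by
    apply Run.prim'
    have e : s (Store.reads (⟨m, z⟩ : Store M F α)) = a := ha
    simp only [appAct, e, hg]
    cases v <;> rfl
  have h2 := run_act' (d := d) (f := g) (o := .right) (v := ⟨a :: u, v.tail⟩) (m := m)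
    (z := update z g ⟨u, a :: v.tail⟩) (by rw [Function.update_self]; rfl)
  rw [Function.update_idem] at h2
  exact Run.seq h1 h2

/-- Write `|r|` times a symbol which depends on the symbols under the other heads. -/
def fillN (g r : F) (s : (F → Option α) → α) : Prog M F α := forR r (put1 g s)

theorem run_fillN {g r : F} {s : (F → Option α) → α} (hgr : g ≠ r) {a : α} {u v R : List α}
    {m : M} {z : F → Zip α} (hg : z g = ⟨u, v⟩) (hr : z r = ⟨[], R⟩)
    (ha : ∀ y y', s (fun f => (update (update z g y) r y' f).peek) = a) :
    Run d (fillN g r s) ⟨m, z⟩ (R.length * 4 + 2)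
      ⟨m, update z g ⟨List.replicate R.length a ++ u, v.drop R.length⟩⟩ := by
  have h1 := run_forR (d := d) (r := r) (p := put1 g s) (R := R) (m := m)
    (fun i => update z g ⟨List.replicate i a ++ u, v.drop i⟩) 2
    (fun i => by rw [Function.update_of_ne hgr.symm, hr])
    (fun i hi => by
      have h2 := run_put1 (d := d) (g := g) (s := s) (a := a) (u := List.replicate i a ++ u)
        (v := v.drop i) (m := m)
        (z := update (update z g ⟨List.replicate i a ++ u, v.drop i⟩) r (zipAt R i))
        (by rw [Function.update_of_ne hgr, Function.update_self]) (ha _ _)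
      rw [upd_swap hgr, List.tail_drop] at h2
      exact h2)
  simp only [List.replicate_zero, List.nil_append, List.drop_zero] at h1
  rw [upd_self z g _ hg] at h1
  exact h1.mono (by omega)

/-- The symbol under the head of `f`. -/
def rd (e : α) (f : F) : (F → Option α) → α := fun x => (x f).getD e

theorem run_copy1' {e : α} {f g : F} (hfg : f ≠ g) {a : α} {u x v w : List α} {m : M}
    {z : F → Zip α} (hf : z f = ⟨u, a :: x⟩) (hg : z g = ⟨v, w⟩) :
    Run d (copy1 e f g) ⟨m, z⟩ 3
      ⟨m, update (update z f ⟨a :: u, x⟩) g ⟨a :: v, w.tail⟩⟩ := by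
  have h1 : Run d (.prim fun m x => (m, some (g, .write ((x f).getD e))) : Prog M F α) ⟨m, z⟩ 1
      ⟨m, update z g ⟨v, a :: w.tail⟩⟩ := by
    apply Run.prim'
    have e1 : ((⟨m, z⟩ : Store M F α).reads f).getD e = a := by simp [Store.reads, hf]
    simp only [appAct, e1, hg]
    cases w <;> rfl
  have h2 := run_act' (d := d) (f := g) (o := .right) (v := ⟨a :: v, w.tail⟩) (m := m)
    (z := update z g ⟨v, a :: w.tail⟩) (by rw [Function.update_self]; rfl)
  rw [Function.update_idem] at h2
  have h3 := run_act' (d := d) (f := f) (o := .right) (v := ⟨a :: u, x⟩) (m := m)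
    (z := update z g ⟨a :: v, w.tail⟩) (by rw [Function.update_of_ne hfg, hf]; rfl)
  rw [Function.update_comm hfg.symm] at h3
  exact Run.seq h1 (Run.seq h2 h3)

/-- Copying a block over the contents of `g`. -/
theorem run_copyN' {e : α} {f g r : F} (hfg : f ≠ g) (hfr : f ≠ r) (hgr : g ≠ r)
    {x u y v w R : List α} {m : M} {z : F → Zip α} (hlen : x.length = R.length)
    (hf : z f = ⟨u, x ++ y⟩) (hg : z g = ⟨v, w⟩) (hr : z r = ⟨[], R⟩) :
    Run d (copyN e f g r) ⟨m, z⟩ (R.length * 5 + 2)
      ⟨m, update (update z f ⟨x.reverse ++ u, y⟩) g ⟨x.reverse ++ v, w.drop R.length⟩⟩ := by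
  have h1 := run_forR (d := d) (r := r) (p := copy1 e f g) (R := R) (m := m)
    (fun i => update (update z f ⟨(x.take i).reverse ++ u, x.drop i ++ y⟩) g
      ⟨(x.take i).reverse ++ v, w.drop i⟩) 3
    (fun i => by
      rw [Function.update_of_ne hgr.symm, Function.update_of_ne hfr.symm, hr])
    (fun i hi => by
      rw [← hlen] at hi
      have h2 := run_copy1' (d := d) (e := e) hfg (a := x[i]) (u := (x.take i).reverse ++ u)
        (x := x.drop (i + 1) ++ y) (v := (x.take i).reverse ++ v) (w := w.drop i) (m := m)
        (z := update (update (update z f ⟨(x.take i).reverse ++ u, x.drop i ++ y⟩) g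
          ⟨(x.take i).reverse ++ v, w.drop i⟩) r (zipAt R i))
        (by
          rw [Function.update_of_ne hfr, Function.update_of_ne hfg, Function.update_self,
            List.drop_eq_getElem_cons hi]
          rfl)
        (by rw [Function.update_of_ne hgr, Function.update_self])
      rw [getD_map_take_succ hi, getD_map_take_succ hi, List.tail_drop] at h2
      convert h2 using 2
      funext k
      simp only [Function.update_apply]
      split_ifs <;> simp_all)
  simp only [List.take_zero, List.reverse_nil, List.nil_append, List.drop_zero] at h1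
  rw [upd_self z f _ hf, upd_self z g _ hg, ← hlen, List.take_length, List.drop_length,
    List.nil_append, hlen] at h1
  exact h1.mono (by omega)

end Vale.Agent.P338.R3.H968
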