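import Vale.Agent.P338.R3.H968.Cell
import Vale.Agent.P338.R3.H968.Str

/-!
P338-D: stores of the cell machine, and loops over words.
-/

namespace Vale.Agent.P338.R3.H968

open Vale.Agent.P338.R2.H898 Prog
open Vale.Agent.P338.R2.H968
open Vale.Agent.P338.R2.H784
open Vale.Agent.P338.R2.H968.CallEnv (mem0)
open Function (update)

theorem Run.to {M F α : Type} [DecidableEq F] {d : α} {p : Prog M F α} {s s' s'' : Store M F α}
    {t t' : ℕ} (h : Run d p s t s') (ht : t ≤ t') (e : s' = s'') : Run d p s t' s'' :=
  e ▸ h.mono ht

variable {A : MTM}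

/-- The environment of the calls. -/
def En (A : MTM) : CallEnv A (CallMem A) (FT A) (Ac A) (dc A) := env A Sum.inr Sum.inr_injective

/-- Own files. -/
abbrev cf (c : CF) : FT A := .inl c
/-- Files of a call. -/
abbrev kf (j : CFile) : FT A := .inr (.inr j)

/-- The store with own files `o` and call files `x y r k`. -/
def S (o : CF → Zip (Ac A)) (x y r k : Zip (Ac A)) : FT A → Zip (Ac A)
  | .inl c => o c
  | .inr (.inl _) => ⟨[], []⟩
  | .inr (.inr .opX) => x
  | .inr (.inr .opY) => y
  | .inr (.inr .res) => r
  | .inr (.inr .clk) => k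

/-- The store with own files `o`. -/
abbrev S0 (o : CF → Zip (Ac A)) : FT A → Zip (Ac A) := S o ⟨[], []⟩ ⟨[], []⟩ ⟨[], []⟩ ⟨[], []⟩

theorem ft_eq (P : CPar) (D : DS) : (ft P D : FT A → Zip (Ac A)) = S0 (fc P D) := by
  funext k
  rcases k with k | k | k
  · rfl
  · rfl
  · cases k <;> rfl

section
variable (o : CF → Zip (Ac A)) (x y r k v : Zip (Ac A))

@[simp] theorem S_cf (c : CF) : S o x y r k (.inl c) = o c := rfl
theorem S0_cf (c : CF) : (S0 o : FT A → Zip (Ac A)) (.inl c) = o c := rfl
@[simp] theorem S_tp (i : A.Tape) : S o x y r k (.inr (.inl i)) = ⟨[], []⟩ := rfl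
@[simp] theorem S_opX : S o x y r k (.inr (.inr .opX)) = x := rfl
@[simp] theorem S_opY : S o x y r k (.inr (.inr .opY)) = y := rfl
@[simp] theorem S_res : S o x y r k (.inr (.inr .res)) = r := rfl
@[simp] theorem S_clk : S o x y r k (.inr (.inr .clk)) = k := rfl

variable [DecidableEq (FT A)]

@[simp] theorem upd_cf (c : CF) : update (S o x y r k) (.inl c) v = S (update o c v) x y r k := by
  funext i
  rcases i with i | i | i
  · by_cases h : i = c
    · subst h
      simp
    · rw [Function.update_of_ne (by simpa using h), S_cf, S_cf, Function.update_of_ne h]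
  · rw [Function.update_of_ne (by simp)]
    rfl
  · rw [Function.update_of_ne (by simp)]
    cases i <;> rfl

@[simp] theorem upd_opX : update (S o x y r k) (.inr (.inr .opX)) v = S o v y r k := by
  funext i
  rcases i with i | i | i
  · rw [Function.update_of_ne (by simp)]
    rfl
  · rw [Function.update_of_ne (by simp)]
    rfl
  · cases i <;> first | (rw [Function.update_self]; rfl) | (rw [Function.update_of_ne (by simp)]; rfl)

@[simp] theorem upd_opY : update (S o x y r k) (.inr (.inr .opY)) v = S o x v r k := by
  funext i
  rcases i with i | i | i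
  · rw [Function.update_of_ne (by simp)]
    rfl
  · rw [Function.update_of_ne (by simp)]
    rfl
  · cases i <;> first | (rw [Function.update_self]; rfl) | (rw [Function.update_of_ne (by simp)]; rfl)

@[simp] theorem upd_res : update (S o x y r k) (.inr (.inr .res)) v = S o x y v k := by
  funext i
  rcases i with i | i | i
  · rw [Function.update_of_ne (by simp)]
    rfl
  · rw [Function.update_of_ne (by simp)]
    rfl
  · cases i <;> first | (rw [Function.update_self]; rfl) | (rw [Function.update_of_ne (by simp)]; rfl)

@[simp] theorem upd_clk : update (S o x y r k) (.inr (.inr .clk)) v = S o x y r v := by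
  funext i
  rcases i with i | i | i
  · rw [Function.update_of_ne (by simp)]
    rfl
  · rw [Function.update_of_ne (by simp)]
    rfl
  · cases i <;> first | (rw [Function.update_self]; rfl) | (rw [Function.update_of_ne (by simp)]; rfl)

end

/-- Loop over words: `p` moves `f` over the word `w i` and appends `w' i` to `g`; `I` is what `p`
needs of the other files. -/
theorem run_wloop [DecidableEq (FT A)] {p : PC A} {f g q : CF} (hfg : f ≠ g) (hfq : f ≠ q)
    (hgq : g ≠ q) {R : List (Ac A)} {m : CallMem A} {w w' : ℕ → List (Ac A)}
    (I : (CF → Zip (Ac A)) → Prop) (hI : ∀ o c v, c = f ∨ c = g ∨ c = q → I o → I (update o c v))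
    (t : ℕ)
    (h : ∀ i < R.length, ∀ (u v l : List (Ac A)) (o : CF → Zip (Ac A)), I o →
      o f = ⟨u, w i ++ v⟩ → o g = ⟨l, []⟩ →
      Run (dc A) p ⟨m, S0 o⟩ t
        ⟨m, S0 (update (update o f ⟨(w i).reverse ++ u, v⟩) g ⟨(w' i).reverse ++ l, []⟩)⟩)
    {u v l : List (Ac A)} {o : CF → Zip (Ac A)} (ho : I o)
    (hf : o f = ⟨u, (List.range R.length).flatMap w ++ v⟩) (hg : o g = ⟨l, []⟩)
    (hq : o q = ⟨[], R⟩) :
    Run (dc A) (forR (cf q) p) ⟨m, S0 o⟩ (R.length * (t + 2) + 2)
      ⟨m, S0 (update (update o f ⟨((List.range R.length).flatMap w).reverse ++ u, v⟩) g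
        ⟨((List.range R.length).flatMap w').reverse ++ l, []⟩)⟩ := by
  have h1 := run_forR (d := dc A) (r := cf q) (p := p) (R := R) (m := m)
    (fun i => S0 (update (update o f ⟨((List.range i).flatMap w).reverse ++ u,
      (List.range' i (R.length - i)).flatMap w ++ v⟩) g
        ⟨((List.range i).flatMap w').reverse ++ l, []⟩)) t
    (fun i => by
      change update (update o f _) g _ q = _
      rw [Function.update_of_ne hgq.symm, Function.update_of_ne hfq.symm, hq])
    (fun i hi => by
      have e1 : (List.range' i (R.length - i)).flatMap w ++ v =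
          w i ++ ((List.range' (i + 1) (R.length - (i + 1))).flatMap w ++ v) := by
        have e2 : R.length - i = (R.length - (i + 1)) + 1 := by omega
        rw [e2, List.range'_succ, List.flatMap_cons, List.append_assoc]
      have h2 := h i hi (((List.range i).flatMap w).reverse ++ u)
        ((List.range' (i + 1) (R.length - (i + 1))).flatMap w ++ v)
        (((List.range i).flatMap w').reverse ++ l)
        (update (update (update o f ⟨((List.range i).flatMap w).reverse ++ u,
          (List.range' i (R.length - i)).flatMap w ++ v⟩) g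
          ⟨((List.range i).flatMap w').reverse ++ l, []⟩) q (zipAt R i))
        (hI _ _ _ (by simp) (hI _ _ _ (by simp) (hI _ _ _ (by simp) ho)))
        (by rw [Function.update_of_ne hfq, Function.update_of_ne hfg, Function.update_self, e1])
        (by rw [Function.update_of_ne hgq, Function.update_self])
      simp only [upd_cf]
      refine Run.to h2 le_rfl ?_
      congr 2
      funext k
      have e3 : ∀ w : ℕ → List (Ac A), (w i).reverse ++ ((List.range i).flatMap w).reverse =
          ((List.range (i + 1)).flatMap w).reverse := by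
        intro w
        rw [List.range_succ, List.flatMap_append, List.reverse_append]
        simp
      rw [← e3, ← e3]
      simp only [Function.update_apply, List.append_assoc]
      split_ifs <;> simp_all)
  simp only [List.range_zero, List.flatMap_nil, List.reverse_nil, List.nil_append,
    Nat.sub_zero] at h1
  rw [← List.range_eq_range', upd_self o f _ hf, upd_self o g _ hg, Nat.sub_self,
    List.range'_zero, List.flatMap_nil, List.nil_append] at h1
  exact h1

end Vale.Agent.P338.R3.H968
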