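import Vale.Agent.P338.R3.H968.Pk

/-!
P338-D: the product of two cells: packing, call, correction.
-/

namespace Vale.Agent.P338.R3.H968

open Vale.Agent.P338.R2.H898 hiding val
open Prog
open Vale.Agent.P338.R2.H968
open Vale.Agent.P338.R2.H784
open Vale.Agent.P338.R2.H968.CallEnv (mem0 callC)
open Vale.Agent.P338.R2.H778 (bits val length_bits bits_val)
open Vale.Agent.P338.R3.H525 (addW run_addW rip_add rip_sub)
open Function (update)

variable {A : MTM}

/-- The length of a call. -/
def nb (P : CPar) : ℕ := (3 * P.b + 1) * P.nw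

/-- The packed operand. -/
def pX (P : CPar) (x : Cell) : List Bool :=
  wz (nb P) ((val (pk P.b P.nw x) : ℤ) - (val (kb P.b P.nw) : ℤ))

/-- Pack the cell of `f` into the file `g`. -/
def packA (A : MTM) (f g : CF) : PC A :=
  .seq (forR (rf .nw) (pk1 f g))
    (.seq (forR (rf .nw) (kb1 (.h 2)))
      (addW bc Sy.unbit true (cf g) (cf (.h 2)) (cf (.h 7)) (rf .b3)))

theorem unbit_bc (b : Bool) : Sy.unbit (bc (A := A) b) = b := by cases b <;> rfl

theorem eq_wz (x : List Bool) : x = wz x.length (val x : ℤ) := by rw [wz_nat, bits_val]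

theorem nb_ge (P : CPar) : P.nw * (3 * P.b) ≤ nb P := by
  unfold nb
  nlinarith

section
variable [DecidableEq (FT A)]

/-- Subtraction of whole files. -/
theorem run_subF {P : CPar} {g : CF} (hg2 : g ≠ .h 2) (hg7 : g ≠ .h 7) (hg : ∀ k, g ≠ .r k)
    {m : CallMem A} {o : CF → Zip (Ac A)} (hr : ∀ k, o (.r k) = ⟨[], List.replicate (rv P k) .u⟩)
    {x y : List Bool} (hx : x.length = nb P) (hy : y.length = nb P)
    (h1 : o g = ⟨(x.map bc).reverse, []⟩) (h2 : o (.h 2) = ⟨(y.map bc).reverse, []⟩)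
    (h7 : o (.h 7) = ⟨[], []⟩) :
    Run (dc A) (addW bc Sy.unbit true (cf g) (cf (.h 2)) (cf (.h 7)) (rf .b3)) ⟨m, S0 o⟩
      (nb P * 7 + 4) ⟨m, S0 (update (update o g
        ⟨[], (wz (nb P) ((val x : ℤ) - (val y : ℤ))).map bc⟩) (.h 2) ⟨[], []⟩)⟩ := by
  have s := run_addW (d := dc A) (bt := bc) (ub := Sy.unbit) unbit_bc (sb := true)
    (t := cf g) (A := cf (.h 2)) (cy := cf (.h 7)) (r := rf .b3) (by simpa using hg2)
    (by simpa using hg7) (by simp) (by simpa using hg .b3) (by simp) (by simp)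
    (xs := x.reverse) (ys := y.reverse) (R := List.replicate (nb P) .u) (l := []) (w := [])
    (u := []) (m := m) (z := S0 o) (by simp [hx]) (by simp [hy])
    (by rw [S0_cf, h1, List.map_reverse, List.append_nil])
    (by rw [S0_cf, h2, List.map_reverse, List.append_nil]) h7 (hr .b3)
  simp only [upd_cf, List.length_replicate] at s
  have e : (List.map (bc (A := A)) (H525.rip true false x.reverse y.reverse)).reverse =
      (wz (nb P) ((val x : ℤ) - (val y : ℤ))).map bc := by
    have e1 : x = wz (nb P) (val x : ℤ) := by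
      rw [← hx]
      exact eq_wz x
    have e2 : y = wz (nb P) (val y : ℤ) := by
      rw [← hy]
      exact eq_wz y
    have e3 := rip_sub (nb P) (val x : ℤ) (val y : ℤ) false
    rw [← e1, ← e2] at e3
    rw [e3, List.map_reverse, List.reverse_reverse]
    simp
  rw [e, List.append_nil] at s
  exact s

/-- Addition of whole files. -/
theorem run_addF {P : CPar} {g : CF} (hg2 : g ≠ .h 2) (hg7 : g ≠ .h 7) (hg : ∀ k, g ≠ .r k)
    {m : CallMem A} {o : CF → Zip (Ac A)} (hr : ∀ k, o (.r k) = ⟨[], List.replicate (rv P k) .u⟩)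
    {x y : List Bool} (hx : x.length = nb P) (hy : y.length = nb P)
    (h1 : o g = ⟨(x.map bc).reverse, []⟩) (h2 : o (.h 2) = ⟨(y.map bc).reverse, []⟩)
    (h7 : o (.h 7) = ⟨[], []⟩) :
    Run (dc A) (addW bc Sy.unbit false (cf g) (cf (.h 2)) (cf (.h 7)) (rf .b3)) ⟨m, S0 o⟩
      (nb P * 7 + 4) ⟨m, S0 (update (update o g
        ⟨[], (wz (nb P) ((val x : ℤ) + (val y : ℤ))).map bc⟩) (.h 2) ⟨[], []⟩)⟩ := by
  have s := run_addW (d := dc A) (bt := bc) (ub := Sy.unbit) unbit_bc (sb := false)
    (t := cf g) (A := cf (.h 2)) (cy := cf (.h 7)) (r := rf .b3) (by simpa using hg2)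
    (by simpa using hg7) (by simp) (by simpa using hg .b3) (by simp) (by simp)
    (xs := x.reverse) (ys := y.reverse) (R := List.replicate (nb P) .u) (l := []) (w := [])
    (u := []) (m := m) (z := S0 o) (by simp [hx]) (by simp [hy])
    (by rw [S0_cf, h1, List.map_reverse, List.append_nil])
    (by rw [S0_cf, h2, List.map_reverse, List.append_nil]) h7 (hr .b3)
  simp only [upd_cf, List.length_replicate] at s
  have e : (List.map (bc (A := A)) (H525.rip false false x.reverse y.reverse)).reverse =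
      (wz (nb P) ((val x : ℤ) + (val y : ℤ))).map bc := by
    have e1 : x = wz (nb P) (val x : ℤ) := by
      rw [← hx]
      exact eq_wz x
    have e2 : y = wz (nb P) (val y : ℤ) := by
      rw [← hy]
      exact eq_wz y
    have e3 := rip_add (nb P) (val x : ℤ) (val y : ℤ) false
    rw [← e1, ← e2] at e3
    rw [e3, List.map_reverse, List.reverse_reverse]
    simp
  rw [e, List.append_nil] at s
  exact s

theorem run_packA {P : CPar} (hP : P.Ok) {f g : CF} (hf : ∀ k, f ≠ .r k) (hfh : ∀ i, f ≠ .h i)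
    (hg : ∀ k, g ≠ .r k) (hg2 : g ≠ .h 2) (hg3 : g ≠ .h 3) (hg7 : g ≠ .h 7) (hfg : f ≠ g)
    (x : Cell) {m : CallMem A} {u v : List (Ac A)} {o : CF → Zip (Ac A)}
    (hr : ∀ k, o (.r k) = ⟨[], List.replicate (rv P k) .u⟩)
    (h2 : o (.h 2) = ⟨[], []⟩) (h3 : o (.h 3) = ⟨[], []⟩) (h7 : o (.h 7) = ⟨[], []⟩)
    (h1 : o f = ⟨u, (cellB P x).map bc ++ v⟩) (hog : o g = ⟨[], []⟩) :
    Run (dc A) (packA A f g) ⟨m, S0 o⟩ (23 * nb P)
      ⟨m, S0 (update (update o f ⟨((cellB P x).map bc).reverse ++ u, v⟩) g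
        ⟨[], (pX P x).map bc⟩)⟩ := by
  have hb := hP.hb
  have hs := hP.hs
  have hw := hP.hw
  have hY := hP.hY
  have hb1 : 1 ≤ P.b := by omega
  have hnw : 1 ≤ P.nw := by unfold CPar.nw; omega
  -- words
  have s1 := run_wloop (A := A) (p := pk1 f g) (f := f) (g := g) (q := .r .nw) hfg
    (hf _) (hg _) (R := List.replicate P.nw .u) (m := m)
    (w := fun i => (wz P.b (x (P.nw - 1 - i))).map bc)
    (w' := fun i => (List.replicate (2 * P.b) false ++
      ((!sgb P.b (x (P.nw - 1 - i))) :: wz P.b (x (P.nw - 1 - i)))).map bc) (RK P)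
    (fun o c v hc ho => ho.upd (by
      rcases hc with rfl | rfl | rfl
      · intro k hk
        exact absurd hk (hf k)
      · intro k hk
        exact absurd hk (hg k)
      · intro k hk
        exact (CF.r.inj hk).symm) v) (13 * P.b + 6)
    (fun i _ u v l o ho h1 h2 => run_pk1 hb1 hfg hf hg (x (P.nw - 1 - i)) ho h1 h2)
    (u := u) (v := v) (l := []) (o := o) (fun k _ => hr k)
    (by rw [List.length_replicate, ← map_cellB, h1]) hog (hr .nw)
  rw [List.length_replicate, ← map_cellB, ← List.map_flatMap, List.append_nil] at s1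
  change Run (dc A) _ _ _ ⟨m, S0 (update (update o f ⟨((cellB P x).map bc).reverse ++ u, v⟩) g
    ⟨((pk P.b P.nw x).map bc).reverse, []⟩)⟩ at s1
  set o1 := update (update o f ⟨((cellB P x).map bc).reverse ++ u, v⟩) g
    ⟨((pk P.b P.nw x).map bc).reverse, []⟩ with ho1
  have hr1 : ∀ k, o1 (.r k) = ⟨[], List.replicate (rv P k) .u⟩ := by
    intro k
    rw [ho1, Function.update_of_ne (hg k).symm, Function.update_of_ne (hf k).symm, hr]
  have h21 : o1 (.h 2) = ⟨[], []⟩ := by
    rw [ho1, Function.update_of_ne hg2.symm, Function.update_of_ne (hfh 2).symm, h2]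
  have h31 : o1 (.h 3) = ⟨[], []⟩ := by
    rw [ho1, Function.update_of_ne hg3.symm, Function.update_of_ne (hfh 3).symm, h3]
  have h71 : o1 (.h 7) = ⟨[], []⟩ := by
    rw [ho1, Function.update_of_ne hg7.symm, Function.update_of_ne (hfh 7).symm, h7]
  -- the constant
  have s2 := run_wloop0 (A := A) (p := kb1 (.h 2)) (g := .h 2) (q := .r .nw) (by simp) (by simp)
    (by simp) (R := List.replicate P.nw .u) (m := m)
    (w' := (List.replicate (2 * P.b) false ++ (true :: List.replicate P.b false)).map bc) (RK P)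
    (fun o c v hc ho => ho.upd (by
      rcases hc with rfl | rfl | rfl
      · intro k hk
        cases hk
      · intro k hk
        cases hk
      · intro k hk
        exact (CF.r.inj hk).symm) v) (12 * P.b + 6)
    (fun l o ho h2 => run_kb1 (by simp) ho h2) (l := []) (o := o1) (fun k _ => hr1 k) h31 h21
    (hr1 .nw)
  rw [List.length_replicate, ← List.map_flatMap, List.append_nil] at s2
  change Run (dc A) _ _ _ ⟨m, S0 (update o1 (.h 2) ⟨((kb P.b P.nw).map bc).reverse, []⟩)⟩ at s2
  -- the subtraction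
  have s3 := run_subF (A := A) (P := P) (g := g) hg2 hg7 hg (m := m)
    (o := update o1 (.h 2) ⟨((kb P.b P.nw).map bc).reverse, []⟩)
    (fun k => by rw [Function.update_of_ne (by simp), hr1]) (length_pk P.b P.nw x)
    (length_kb P.b P.nw) (by rw [Function.update_of_ne hg2, ho1, Function.update_self])
    (by rw [Function.update_self]) (by rw [Function.update_of_ne (by simp), h71])
  have e1 : update (update (update o1 (.h 2) ⟨((kb P.b P.nw).map bc).reverse, []⟩) g
      ⟨[], (wz (nb P) ((val (pk P.b P.nw x) : ℤ) - (val (kb P.b P.nw) : ℤ))).map bc⟩) (.h 2)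
        ⟨[], []⟩ =
      update (update o f ⟨((cellB P x).map bc).reverse ++ u, v⟩) g ⟨[], (pX P x).map bc⟩ := by
    rw [upd_swap hg2.symm, upd_self o1 _ _ h21, ho1, Function.update_idem]
    rfl
  rw [e1] at s3
  refine Run.mono (Run.seq s1 (Run.seq s2 s3)) ?_
  have e2 : nb P = P.nw * (3 * P.b) + P.nw := by unfold nb; ring
  have e3 : P.nw * (13 * P.b + 6 + 2) = 13 * (P.nw * P.b) + 8 * P.nw := by ring
  have e4 : P.nw * (12 * P.b + 6 + 2) = 12 * (P.nw * P.b) + 8 * P.nw := by ring
  have e5 : P.nw * (3 * P.b) = 3 * (P.nw * P.b) := by ring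
  have e6 : P.nw * 1 ≤ P.nw * P.b := Nat.mul_le_mul_left _ hb1
  rw [e3, e4]
  omega

end

end Vale.Agent.P338.R3.H968
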