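import Vale.Agent.P338.R3.H968.Mulp

/-!
P338-D: the product of two cells up to the unpacking.
-/

namespace Vale.Agent.P338.R3.H968

open Vale.Agent.P338.R2.H898 hiding val
open Prog
open Vale.Agent.P338.R2.H968
open Vale.Agent.P338.R2.H784
open Vale.Agent.P338.R2.H968.CallEnv (mem0 callC)
open Vale.Agent.P338.R2.H778 (bits val length_bits bits_val)
open Vale.Agent.P338.R3.H525 (addW)
open Function (update)

variable {A : MTM}

/-- Move the file `g` to an operand. -/
def toOp (A : MTM) (g : CF) (j : CFile) : PC A :=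
  .seq (copyN (dc A) (cf g) (kf j) (rf .b3)) (.seq (act (kf j) .rew) (clr (cf g)))

/-- The lower half of the result goes to `h 1`. -/
def fromRes (A : MTM) : PC A :=
  .seq (rN (kf .res) (rf .b3))
    (.seq (copyN (dc A) (kf .res) (cf (.h 1)) (rf .b3)) (clr (kf .res)))

/-- Bias the product. -/
def biasR (A : MTM) : PC A :=
  .seq (forR (rf .nw) (kc1 (.h 2)))
    (addW bc Sy.unbit false (cf (.h 1)) (cf (.h 2)) (cf (.h 7)) (rf .b3))

/-- The packed product with bias. -/
def pR (P : CPar) (x y : Cell) : List Bool :=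
  wz (nb P) ((val ((bits (2 * nb P) (val (pX P x) * val (pX P y))).drop (nb P)) : ℤ) +
    (val (kc P.b P.nw) : ℤ))

/-- The product of the current cell with the top of the stack (popped), in `h 1`. -/
noncomputable def mulp0 (A : MTM) : PC A :=
  .seq (packA A .x (.h 1))
  (.seq (lN (cf .x) (rf .ell))
  (.seq (lN (cf .b) (rf .ell))
  (.seq (packA A .b (.h 4))
  (.seq (lN (cf .b) (rf .ell))
  (.seq (act (cf .b) .trunc)
  (.seq (toOp A (.h 1) .opX)
  (.seq (toOp A (.h 4) .opY)
  (.seq (call A (.r .b3))
  (.seq (fromRes A)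
  (biasR A))))))))))

section
variable [DecidableEq (FT A)]

theorem run_toX {P : CPar} {g : CF} (hg : ∀ k, g ≠ .r k) {m : CallMem A} {o : CF → Zip (Ac A)}
    {y r k : Zip (Ac A)} (hr : o (.r .b3) = ⟨[], List.replicate (nb P) .u⟩) {x : List Bool}
    (hx : x.length = nb P) (h1 : o g = ⟨[], x.map bc⟩) :
    Run (dc A) (toOp A g .opX) ⟨m, S o ⟨[], []⟩ y r k⟩ (5 * nb P + 5)
      ⟨m, S (update o g ⟨[], []⟩) ⟨[], x.map bc⟩ y r k⟩ := by
  have s1 := run_copyN (d := dc A) (e := dc A) (f := cf g) (g := kf .opX) (r := rf .b3)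
    (by simp) (by simpa using hg .b3) (by simp) (x := x.map bc) (y := []) (u := []) (v := [])
    (R := List.replicate (nb P) .u) (m := m) (z := S o ⟨[], []⟩ y r k) (by simp [hx])
    (by rw [S_cf, h1, List.append_nil]) rfl hr
  simp only [upd_cf, upd_opX, List.length_replicate, List.append_nil] at s1
  have s2 := run_act' (d := dc A) (f := kf .opX) (o := .rew) (v := ⟨[], x.map bc⟩) (m := m)
    (z := S (update o g ⟨(x.map bc).reverse, []⟩) ⟨(x.map bc).reverse, []⟩ y r k)
    (by rw [S_opX, app_rew, List.reverse_reverse, List.append_nil])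
  simp only [upd_opX] at s2
  have s3 := run_clr (d := dc A) (cf g) m
    (S (update o g ⟨(x.map bc).reverse, []⟩) ⟨[], x.map bc⟩ y r k)
  simp only [upd_cf, Function.update_idem] at s3
  exact (Run.seq s1 (Run.seq s2 s3)).mono (by omega)

theorem run_toY {P : CPar} {g : CF} (hg : ∀ k, g ≠ .r k) {m : CallMem A} {o : CF → Zip (Ac A)}
    {y r k : Zip (Ac A)} (hr : o (.r .b3) = ⟨[], List.replicate (nb P) .u⟩) {x : List Bool}
    (hx : x.length = nb P) (h1 : o g = ⟨[], x.map bc⟩) :
    Run (dc A) (toOp A g .opY) ⟨m, S o y ⟨[], []⟩ r k⟩ (5 * nb P + 5)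
      ⟨m, S (update o g ⟨[], []⟩) y ⟨[], x.map bc⟩ r k⟩ := by
  have s1 := run_copyN (d := dc A) (e := dc A) (f := cf g) (g := kf .opY) (r := rf .b3)
    (by simp) (by simpa using hg .b3) (by simp) (x := x.map bc) (y := []) (u := []) (v := [])
    (R := List.replicate (nb P) .u) (m := m) (z := S o y ⟨[], []⟩ r k) (by simp [hx])
    (by rw [S_cf, h1, List.append_nil]) rfl hr
  simp only [upd_cf, upd_opY, List.length_replicate, List.append_nil] at s1
  have s2 := run_act' (d := dc A) (f := kf .opY) (o := .rew) (v := ⟨[], x.map bc⟩) (m := m)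
    (z := S (update o g ⟨(x.map bc).reverse, []⟩) y ⟨(x.map bc).reverse, []⟩ r k)
    (by rw [S_opY, app_rew, List.reverse_reverse, List.append_nil])
  simp only [upd_opY] at s2
  have s3 := run_clr (d := dc A) (cf g) m
    (S (update o g ⟨(x.map bc).reverse, []⟩) y ⟨[], x.map bc⟩ r k)
  simp only [upd_cf, Function.update_idem] at s3
  exact (Run.seq s1 (Run.seq s2 s3)).mono (by omega)

theorem run_fromRes {P : CPar} {m : CallMem A} {o : CF → Zip (Ac A)}
    (hr : o (.r .b3) = ⟨[], List.replicate (nb P) .u⟩) {q : List Bool}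
    (hq : q.length = 2 * nb P) (h1 : o (.h 1) = ⟨[], []⟩) :
    Run (dc A) (fromRes A) ⟨m, S o ⟨[], []⟩ ⟨[], []⟩ ⟨[], q.map bc⟩ ⟨[], []⟩⟩ (8 * nb P + 6)
      ⟨m, S0 (update o (.h 1) ⟨((q.drop (nb P)).map bc).reverse, []⟩)⟩ := by
  have s1 := run_rN (d := dc A) (f := kf .res) (r := rf .b3) (by simp)
    (x := (q.take (nb P)).map bc) (u := []) (v := (q.drop (nb P)).map bc)
    (R := List.replicate (nb P) .u) (m := m) (z := S o ⟨[], []⟩ ⟨[], []⟩ ⟨[], q.map bc⟩ ⟨[], []⟩)
    (by simp [hq]; omega) (by rw [S_res, ← List.map_append, List.take_append_drop]) hr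
  simp only [upd_res, List.length_replicate, List.append_nil] at s1
  have s2 := run_copyN (d := dc A) (e := dc A) (f := kf .res) (g := cf (.h 1)) (r := rf .b3)
    (by simp) (by simp) (by simp) (x := (q.drop (nb P)).map bc) (y := [])
    (u := ((q.take (nb P)).map bc).reverse) (v := [])
    (R := List.replicate (nb P) .u) (m := m)
    (z := S o ⟨[], []⟩ ⟨[], []⟩
      ⟨((q.take (nb P)).map bc).reverse, (q.drop (nb P)).map bc⟩ ⟨[], []⟩)
    (by simp [hq]; omega) (by rw [S_res, List.append_nil]) h1 hr
  simp only [upd_res, upd_cf, List.length_replicate, List.append_nil] at s2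
  have s3 := run_clr (d := dc A) (kf .res) m
    (S (update o (.h 1) ⟨((q.drop (nb P)).map bc).reverse, []⟩) ⟨[], []⟩ ⟨[], []⟩
      ⟨((q.drop (nb P)).map bc).reverse ++ ((q.take (nb P)).map bc).reverse, []⟩ ⟨[], []⟩)
  simp only [upd_res] at s3
  exact (Run.seq s1 (Run.seq s2 s3)).mono (by omega)

theorem run_biasR {P : CPar} (hP : P.Ok) {m : CallMem A} {o : CF → Zip (Ac A)}
    (hr : ∀ k, o (.r k) = ⟨[], List.replicate (rv P k) .u⟩)
    (h2 : o (.h 2) = ⟨[], []⟩) (h3 : o (.h 3) = ⟨[], []⟩) (h7 : o (.h 7) = ⟨[], []⟩)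
    {q : List Bool} (hq : q.length = nb P) (h1 : o (.h 1) = ⟨(q.map bc).reverse, []⟩) :
    Run (dc A) (biasR A) ⟨m, S0 o⟩ (20 * nb P)
      ⟨m, S0 (update o (.h 1)
        ⟨[], (wz (nb P) ((val q : ℤ) + (val (kc P.b P.nw) : ℤ))).map bc⟩)⟩ := by
  have hb := hP.hb
  have hs := hP.hs
  have hw := hP.hw
  have hY := hP.hY
  have hb1 : 1 ≤ P.b := by omega
  have hnw : 1 ≤ P.nw := by unfold CPar.nw; omega
  have s2 := run_wloop0 (A := A) (p := kc1 (.h 2)) (g := .h 2) (q := .r .nw) (by simp) (by simp)
    (by simp) (R := List.replicate P.nw .u) (m := m)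
    (w' := (true :: List.replicate (3 * P.b) false).map bc) (RK P)
    (fun o c v hc ho => ho.upd (by
      rcases hc with rfl | rfl | rfl
      · intro k hk
        cases hk
      · intro k hk
        cases hk
      · intro k hk
        exact (CF.r.inj hk).symm) v) (12 * P.b + 6)
    (fun l o ho h2 => run_kc1 (by simp) ho h2) (l := []) (o := o) (fun k _ => hr k) h3 h2
    (hr .nw)
  rw [List.length_replicate, ← List.map_flatMap, List.append_nil] at s2
  change Run (dc A) _ _ _ ⟨m, S0 (update o (.h 2) ⟨((kc P.b P.nw).map bc).reverse, []⟩)⟩ at s2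
  have s3 := run_addF (A := A) (P := P) (g := .h 1) (by simp) (by simp) (by simp) (m := m)
    (o := update o (.h 2) ⟨((kc P.b P.nw).map bc).reverse, []⟩)
    (fun k => by rw [Function.update_of_ne (by simp), hr]) hq
    (length_kc P.b P.nw) (by rw [Function.update_of_ne (by simp), h1])
    (by rw [Function.update_self]) (by rw [Function.update_of_ne (by simp), h7])
  rw [upd_swap (by simp), upd_self o _ _ h2] at s3
  refine Run.mono (Run.seq s2 s3) ?_
  have e2 : nb P = P.nw * (3 * P.b) + P.nw := by unfold nb; ring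
  have e4 : P.nw * (12 * P.b + 6 + 2) = 12 * (P.nw * P.b) + 8 * P.nw := by ring
  have e5 : P.nw * (3 * P.b) = 3 * (P.nw * P.b) := by ring
  have e6 : P.nw * 1 ≤ P.nw * P.b := Nat.mul_le_mul_left _ hb1
  rw [e4]
  omega

/-- The product up to the unpacking. -/
theorem run_mulp0 (hA : Multiplies A) {P : CPar} (hP : P.Ok) (D : DS) (c e : Cell)
    (r B : List Cell) (hX : D.X.r = c :: r) (hB : D.B = e :: B) :
    Run (dc A) (mulp0 A) (stc P D) ((callC A + 170) * (mulTime A (nb P) + nb P))
      ⟨mem0 A, S0 (update (fc P { D with B := B }) (.h 1) ⟨[], (pR P c e).map bc⟩)⟩ := by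
  have hb := hP.hb
  have hs := hP.hs
  have hw := hP.hw
  have hY := hP.hY
  have hb1 : 1 ≤ P.b := by omega
  have hnw : 1 ≤ P.nw := by unfold CPar.nw; omega
  obtain ⟨u, hu⟩ : ∃ u : List (Ac A), u = (D.X.l.flatMap fun c => (cellB P c).reverse).map bc :=
    ⟨_, rfl⟩
  obtain ⟨v, hv⟩ : ∃ v : List (Ac A), v = (r.flatMap (cellB P)).map bc := ⟨_, rfl⟩
  obtain ⟨w, hw'⟩ : ∃ w : List (Ac A), w = (B.flatMap fun c => (cellB P c).reverse).map bc :=
    ⟨_, rfl⟩
  obtain ⟨o, ho⟩ : ∃ o : CF → Zip (Ac A), o = fc P D := ⟨_, rfl⟩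
  have hr : ∀ k, o (.r k) = ⟨[], List.replicate (rv P k) .u⟩ := by
    intro k
    rw [ho]
    rfl
  have hh : ∀ i, o (.h i) = ⟨[], []⟩ := by
    intro i
    rw [ho]
    rfl
  have hox : o .x = ⟨u, (cellB P c).map bc ++ v⟩ := by
    rw [ho]
    change zc P D.X = _
    rw [zc, hX, List.flatMap_cons, List.map_append, hu, hv]
  have hob : o .b = ⟨((cellB P e).map bc).reverse ++ w, []⟩ := by
    rw [ho]
    change sc P D.B = _
    rw [sc, hB, List.flatMap_cons, List.map_append, hw', List.map_reverse]
  have hst : (stc P D : Store (CallMem A) (FT A) (Ac A)) = ⟨mem0 A, S0 o⟩ := by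
    rw [stc, ft_eq, ho]
  rw [hst]
  -- the first factor
  have s1 := run_packA hP (f := .x) (g := .h 1) (by simp) (by simp) (by simp) (by simp) (by simp)
    (by simp) (by simp) c (m := mem0 A) hr (hh 2) (hh 3) (hh 7) hox (hh 1)
  have s2 := run_lN (d := dc A) (f := cf .x) (r := rf .ell) (by simp)
    (x := ((cellB P c).map bc).reverse) (u := u) (v := v) (R := List.replicate P.ell .u)
    (m := mem0 A) (z := S0 (update (update o .x ⟨((cellB P c).map bc).reverse ++ u, v⟩) (.h 1)
      ⟨[], (pX P c).map bc⟩)) (by simp [length_cellB])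
    (by rw [S0_cf, Function.update_of_ne (by simp), Function.update_self])
    (by rw [S0_cf, Function.update_of_ne (by simp), Function.update_of_ne (by simp), hr]; rfl)
  simp only [upd_cf, List.length_replicate, List.reverse_reverse] at s2
  rw [upd_swap (by simp), upd_self o _ _ hox] at s2
  -- the second factor
  have s3 := run_lN (d := dc A) (f := cf .b) (r := rf .ell) (by simp)
    (x := ((cellB P e).map bc).reverse) (u := w) (v := []) (R := List.replicate P.ell .u)
    (m := mem0 A) (z := S0 (update o (.h 1) ⟨[], (pX P c).map bc⟩)) (by simp [length_cellB])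
    (by rw [S0_cf, Function.update_of_ne (by simp), hob])
    (by rw [S0_cf, Function.update_of_ne (by simp), hr]; rfl)
  simp only [upd_cf, List.length_replicate, List.reverse_reverse, List.append_nil] at s3
  have s4 := run_packA hP (f := .b) (g := .h 4) (by simp) (by simp) (by simp) (by simp) (by simp)
    (by simp) (by simp) e (m := mem0 A) (u := w) (v := [])
    (o := update (update o (.h 1) ⟨[], (pX P c).map bc⟩) .b ⟨w, (cellB P e).map bc⟩)
    (fun k => by rw [Function.update_of_ne (by simp), Function.update_of_ne (by simp), hr])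
    (by rw [Function.update_of_ne (by simp), Function.update_of_ne (by simp), hh])
    (by rw [Function.update_of_ne (by simp), Function.update_of_ne (by simp), hh])
    (by rw [Function.update_of_ne (by simp), Function.update_of_ne (by simp), hh])
    (by rw [Function.update_self, List.append_nil])
    (by rw [Function.update_of_ne (by simp), Function.update_of_ne (by simp), hh])
  rw [Function.update_idem] at s4
  have s5 := run_lN (d := dc A) (f := cf .b) (r := rf .ell) (by simp)
    (x := ((cellB P e).map bc).reverse) (u := w) (v := []) (R := List.replicate P.ell .u)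
    (m := mem0 A) (z := S0 (update (update (update o (.h 1) ⟨[], (pX P c).map bc⟩) .b
      ⟨((cellB P e).map bc).reverse ++ w, []⟩) (.h 4) ⟨[], (pX P e).map bc⟩))
    (by simp [length_cellB])
    (by rw [S0_cf, Function.update_of_ne (by simp), Function.update_self])
    (by
      rw [S0_cf, Function.update_of_ne (by simp), Function.update_of_ne (by simp),
        Function.update_of_ne (by simp), hr]
      rfl)
  simp only [upd_cf, List.length_replicate, List.reverse_reverse, List.append_nil] at s5
  rw [upd_swap (by simp)] at s5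
  have s6 := run_act' (d := dc A) (f := cf .b) (o := .trunc) (v := ⟨w, []⟩) (m := mem0 A)
    (z := S0 (update (update (update o (.h 1) ⟨[], (pX P c).map bc⟩) .b
      ⟨w, (cellB P e).map bc⟩) (.h 4) ⟨[], (pX P e).map bc⟩))
    (by rw [S0_cf, Function.update_of_ne (by simp), Function.update_self, app_trunc])
  simp only [upd_cf] at s6
  rw [upd_swap (by simp)] at s6
  -- the call
  have s7 := run_toX (A := A) (P := P) (g := .h 1) (by simp) (m := mem0 A) (y := ⟨[], []⟩)
    (r := ⟨[], []⟩) (k := ⟨[], []⟩) (x := pX P c)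
    (o := update (update (update o (.h 1) ⟨[], (pX P c).map bc⟩) .b ⟨w, []⟩) (.h 4)
      ⟨[], (pX P e).map bc⟩)
    (by
      rw [Function.update_of_ne (by simp), Function.update_of_ne (by simp),
        Function.update_of_ne (by simp), hr]
      rfl) (length_wz _ _)
    (by
      rw [Function.update_of_ne (by simp), Function.update_of_ne (by simp),
        Function.update_self])
  have e1 : update (update (update (update o (.h 1) ⟨[], (pX P c).map bc⟩) .b ⟨w, []⟩) (.h 4)
      ⟨[], (pX P e).map bc⟩) (.h 1) ⟨[], []⟩ =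
      update (update o .b ⟨w, []⟩) (.h 4) ⟨[], (pX P e).map bc⟩ := by
    funext k
    by_cases h4 : k = .h 4
    · subst h4
      simp
    · by_cases h5 : k = .h 1
      · subst h5
        simp [hh]
      · rw [Function.update_of_ne h5, Function.update_of_ne h4, Function.update_of_ne h4]
        by_cases h6 : k = .b
        · subst h6
          simp
        · rw [Function.update_of_ne h6, Function.update_of_ne h6, Function.update_of_ne h5]
  rw [e1] at s7
  have s8 := run_toY (A := A) (P := P) (g := .h 4) (by simp) (m := mem0 A)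
    (y := ⟨[], (pX P c).map bc⟩) (r := ⟨[], []⟩) (k := ⟨[], []⟩) (x := pX P e)
    (o := update (update o .b ⟨w, []⟩) (.h 4) ⟨[], (pX P e).map bc⟩)
    (by
      rw [Function.update_of_ne (by simp), Function.update_of_ne (by simp), hr]
      rfl) (length_wz _ _) (by rw [Function.update_self])
  have hh4 : update o .b ⟨w, []⟩ (.h 4) = ⟨[], []⟩ := by
    rw [Function.update_of_ne (by simp), hh]
  rw [Function.update_idem, upd_self _ _ _ hh4] at s8
  have hpos : 1 ≤ nb P := by
    unfold nb
    exact Nat.mul_pos (by omega) (by omega)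
  have s9 := run_call hA (nr := .r .b3) (N := nb P) hpos (x := pX P c) (y := pX P e)
    (length_wz _ _) (length_wz _ _) (update o .b ⟨w, []⟩)
    (by rw [Function.update_of_ne (by simp), hr]; rfl)
  have s10 := run_fromRes (A := A) (P := P) (m := mem0 A) (o := update o .b ⟨w, []⟩)
    (by rw [Function.update_of_ne (by simp), hr]; rfl)
    (q := bits (2 * nb P) (val (pX P c) * val (pX P e))) (length_bits _ _)
    (by rw [Function.update_of_ne (by simp), hh])
  have s11 := run_biasR (A := A) hP (m := mem0 A)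
    (o := update (update o .b ⟨w, []⟩) (.h 1)
      ⟨(((bits (2 * nb P) (val (pX P c) * val (pX P e))).drop (nb P)).map bc).reverse, []⟩)
    (fun k => by rw [Function.update_of_ne (by simp), Function.update_of_ne (by simp), hr])
    (by rw [Function.update_of_ne (by simp), Function.update_of_ne (by simp), hh])
    (by rw [Function.update_of_ne (by simp), Function.update_of_ne (by simp), hh])
    (by rw [Function.update_of_ne (by simp), Function.update_of_ne (by simp), hh])
    (q := (bits (2 * nb P) (val (pX P c) * val (pX P e))).drop (nb P))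
    (by rw [List.length_drop, length_bits]; omega) (by rw [Function.update_self])
  rw [Function.update_idem] at s11
  refine Run.to (Run.seq s1 (Run.seq s2 (Run.seq s3 (Run.seq s4 (Run.seq s5 (Run.seq s6
    (Run.seq s7 (Run.seq s8 (Run.seq s9 (Run.seq s10 s11)))))))))) ?_ ?_
  · have e3 : (callC A + 170) * (mulTime A (nb P) + nb P) =
      (callC A + 32) * (mulTime A (nb P) + nb P) + 138 * (mulTime A (nb P) + nb P) := by ring
    have e4 : P.ell ≤ nb P := by
      unfold CPar.ell nb
      nlinarith
    rw [e3]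
    omega
  · congr 3
    rw [ho, hw']
    funext k
    cases k <;> simp [fc, sc]

end

end Vale.Agent.P338.R3.H968
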