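import Vale.Agent.P338.R3.H968.Wmul
import Vale.Agent.P338.R3.H525.Word

/-!
P338-D: packing the words of a cell into slots of `3 b + 1` bits.
-/

namespace Vale.Agent.P338.R3.H968

open Vale.Agent.P338.R2.H898 hiding val
open Prog
open Vale.Agent.P338.R2.H968
open Vale.Agent.P338.R2.H784
open Vale.Agent.P338.R2.H778 (bits val length_bits)
open Function (update)

variable {A : MTM}

/-- The slots: `2 b` zeros, the negated sign, the word. -/
def pk (b n : ℕ) (x : Cell) : List Bool :=
  (List.range n).flatMap fun i =>
    List.replicate (2 * b) false ++ ((!sgb b (x (n - 1 - i))) :: wz b (x (n - 1 - i)))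

/-- The bias of the slots of a factor. -/
def kb (b n : ℕ) : List Bool :=
  (List.range n).flatMap fun _ => List.replicate (2 * b) false ++ (true :: List.replicate b false)

/-- The bias of the slots of the product. -/
def kc (b n : ℕ) : List Bool := (List.range n).flatMap fun _ => true :: List.replicate (3 * b) false

theorem length_pk (b n : ℕ) (x : Cell) : (pk b n x).length = (3 * b + 1) * n := by
  have h : ∀ i, (List.replicate (2 * b) false ++ ((!sgb b (x (n - 1 - i))) ::
      wz b (x (n - 1 - i)))).length = 3 * b + 1 := by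
    intro i
    rw [List.length_append, List.length_replicate, List.length_cons, length_wz]
    omega
  rw [pk, List.length_flatMap]
  simp only [h]
  simp
  ring

theorem length_kb (b n : ℕ) : (kb b n).length = (3 * b + 1) * n := by
  have h : (List.replicate (2 * b) false ++ (true :: List.replicate b false)).length =
      3 * b + 1 := by
    rw [List.length_append, List.length_replicate, List.length_cons, List.length_replicate]
    omega
  rw [kb, List.length_flatMap]
  simp only [h]
  simp
  ring

theorem length_kc (b n : ℕ) : (kc b n).length = (3 * b + 1) * n := by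
  rw [kc, List.length_flatMap]
  simp
  ring

/-- The negated bit under the head of `f`. -/
def ng (f : FT A) : (FT A → Option (Ac A)) → Ac A := fun x => bc (!(Sy.unbit ((x f).getD (dc A))))

/-- One slot. -/
def pk1 (f g : CF) : PC A :=
  .seq (fillN (cf g) (rf .b2) (fun _ => bc false))
    (.seq (put1 (cf g) (ng (cf f))) (copyN (dc A) (cf f) (cf g) (rf .b)))

/-- One slot of the bias of a factor. -/
def kb1 (g : CF) : PC A :=
  .seq (fillN (cf g) (rf .b2) (fun _ => bc false))
    (.seq (put1 (cf g) (fun _ => bc true)) (fillN (cf g) (rf .b) (fun _ => bc false)))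

/-- One slot of the bias of the product. -/
def kc1 (g : CF) : PC A :=
  .seq (put1 (cf g) (fun _ => bc true))
    (.seq (fillN (cf g) (rf .b2) (fun _ => bc false)) (fillN (cf g) (rf .b) (fun _ => bc false)))

/-- The rulers used in loops over words. -/
def RK (P : CPar) (o : CF → Zip (Ac A)) : Prop :=
  ∀ k, k ≠ RN.nw → o (.r k) = ⟨[], List.replicate (rv P k) .u⟩

theorem RK.upd {P : CPar} {o : CF → Zip (Ac A)} (h : RK P o) {c : CF} (hc : ∀ k, c = .r k → k = .nw)
    (v : Zip (Ac A)) : RK P (update o c v) := by
  intro k hk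
  rw [Function.update_of_ne, h k hk]
  intro e
  exact hk (hc k e.symm)

section
variable [DecidableEq (FT A)]

theorem run_pk1 {P : CPar} (hb1 : 1 ≤ P.b) {f g : CF} (hfg : f ≠ g) (hf : ∀ k, f ≠ .r k)
    (hg : ∀ k, g ≠ .r k) (x : ℤ) {m : CallMem A} {u v l : List (Ac A)} {o : CF → Zip (Ac A)}
    (ho : RK P o) (h1 : o f = ⟨u, (wz P.b x).map bc ++ v⟩) (h2 : o g = ⟨l, []⟩) :
    Run (dc A) (pk1 f g) ⟨m, S0 o⟩ (13 * P.b + 6)
      ⟨m, S0 (update (update o f ⟨((wz P.b x).map bc).reverse ++ u, v⟩) g
        ⟨((List.replicate (2 * P.b) false ++ ((!sgb P.b x) :: wz P.b x)).map bc).reverse ++ l,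
          []⟩)⟩ := by
  have hrb : o (.r .b) = ⟨[], List.replicate P.b .u⟩ := ho .b (by simp)
  have hrb2 : o (.r .b2) = ⟨[], List.replicate (2 * P.b) .u⟩ := ho .b2 (by simp)
  have s1 := run_fillN (d := dc A) (g := cf g) (r := rf .b2) (s := fun _ => bc false)
    (by simpa using hg .b2) (a := bc false) (u := l) (v := []) (R := List.replicate (2 * P.b) .u)
    (m := m) (z := S0 o) h2 hrb2 (fun _ _ => rfl)
  simp only [upd_cf, List.length_replicate, List.drop_nil] at s1
  have s2 := run_put1 (d := dc A) (g := cf g) (s := ng (cf f)) (a := bc (!sgb P.b x))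
    (u := List.replicate (2 * P.b) (bc false) ++ l) (v := []) (m := m)
    (z := S0 (update o g ⟨List.replicate (2 * P.b) (bc false) ++ l, []⟩))
    (by rw [S0_cf, Function.update_self])
    (by
      rw [ng]
      simp only [S0_cf]
      rw [Function.update_of_ne hfg, h1, wz_eq_cons hb1]
      simp only [List.map_cons, List.cons_append, peek_cons, Option.getD_some]
      cases sgb P.b x <;> rfl)
  simp only [upd_cf, List.tail_nil, Function.update_idem] at s2
  have s3 := run_copyN (d := dc A) (e := dc A) (f := cf f) (g := cf g) (r := rf .b)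
    (by simpa using hfg) (by simpa using hf .b) (by simpa using hg .b) (x := (wz P.b x).map bc)
    (y := v) (u := u) (v := bc (!sgb P.b x) :: (List.replicate (2 * P.b) (bc false) ++ l))
    (R := List.replicate P.b .u) (m := m)
    (z := S0 (update o g
      ⟨bc (!sgb P.b x) :: (List.replicate (2 * P.b) (bc false) ++ l), []⟩))
    (by simp) (by rw [S0_cf, Function.update_of_ne hfg, h1])
    (by rw [S0_cf, Function.update_self])
    (by rw [S0_cf, Function.update_of_ne (hg _).symm, hrb])
  simp only [upd_cf, List.length_replicate] at s3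
  rw [Function.update_comm hfg.symm, Function.update_idem] at s3
  refine Run.to (Run.seq s1 (Run.seq s2 s3)) (by omega) ?_
  congr 3
  simp [List.map_append, List.reverse_append]

theorem run_kb1 {P : CPar} {g : CF} (hg : ∀ k, g ≠ .r k) {m : CallMem A} {l : List (Ac A)}
    {o : CF → Zip (Ac A)} (ho : RK P o) (h2 : o g = ⟨l, []⟩) :
    Run (dc A) (kb1 g) ⟨m, S0 o⟩ (12 * P.b + 6)
      ⟨m, S0 (update o g ⟨((List.replicate (2 * P.b) false ++
        (true :: List.replicate P.b false)).map bc).reverse ++ l, []⟩)⟩ := by
  have hrb : o (.r .b) = ⟨[], List.replicate P.b .u⟩ := ho .b (by simp)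
  have hrb2 : o (.r .b2) = ⟨[], List.replicate (2 * P.b) .u⟩ := ho .b2 (by simp)
  have s1 := run_fillN (d := dc A) (g := cf g) (r := rf .b2) (s := fun _ => bc false)
    (by simpa using hg .b2) (a := bc false) (u := l) (v := []) (R := List.replicate (2 * P.b) .u)
    (m := m) (z := S0 o) h2 hrb2 (fun _ _ => rfl)
  simp only [upd_cf, List.length_replicate, List.drop_nil] at s1
  have s2 := run_put1 (d := dc A) (g := cf g) (s := fun _ => bc true) (a := bc true)
    (u := List.replicate (2 * P.b) (bc false) ++ l) (v := []) (m := m)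
    (z := S0 (update o g ⟨List.replicate (2 * P.b) (bc false) ++ l, []⟩))
    (by rw [S0_cf, Function.update_self]) rfl
  simp only [upd_cf, List.tail_nil, Function.update_idem] at s2
  have s3 := run_fillN (d := dc A) (g := cf g) (r := rf .b) (s := fun _ => bc false)
    (by simpa using hg .b) (a := bc false)
    (u := bc true :: (List.replicate (2 * P.b) (bc false) ++ l)) (v := [])
    (R := List.replicate P.b .u) (m := m)
    (z := S0 (update o g ⟨bc true :: (List.replicate (2 * P.b) (bc false) ++ l), []⟩))
    (by rw [S0_cf, Function.update_self])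
    (by rw [S0_cf, Function.update_of_ne (hg _).symm, hrb]) (fun _ _ => rfl)
  simp only [upd_cf, List.length_replicate, List.drop_nil, Function.update_idem] at s3
  refine Run.to (Run.seq s1 (Run.seq s2 s3)) (by omega) ?_
  congr 3
  simp [List.map_append, List.reverse_append]

theorem run_kc1 {P : CPar} {g : CF} (hg : ∀ k, g ≠ .r k) {m : CallMem A} {l : List (Ac A)}
    {o : CF → Zip (Ac A)} (ho : RK P o) (h2 : o g = ⟨l, []⟩) :
    Run (dc A) (kc1 g) ⟨m, S0 o⟩ (12 * P.b + 6)
      ⟨m, S0 (update o g ⟨((true :: List.replicate (3 * P.b) false).map bc).reverse ++ l,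
        []⟩)⟩ := by
  have hrb : o (.r .b) = ⟨[], List.replicate P.b .u⟩ := ho .b (by simp)
  have hrb2 : o (.r .b2) = ⟨[], List.replicate (2 * P.b) .u⟩ := ho .b2 (by simp)
  have s1 := run_put1 (d := dc A) (g := cf g) (s := fun _ => bc true) (a := bc true)
    (u := l) (v := []) (m := m) (z := S0 o) h2 rfl
  simp only [upd_cf, List.tail_nil] at s1
  have s2 := run_fillN (d := dc A) (g := cf g) (r := rf .b2) (s := fun _ => bc false)
    (by simpa using hg .b2) (a := bc false) (u := bc true :: l) (v := [])
    (R := List.replicate (2 * P.b) .u)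
    (m := m) (z := S0 (update o g ⟨bc true :: l, []⟩)) (by rw [S0_cf, Function.update_self])
    (by rw [S0_cf, Function.update_of_ne (hg _).symm, hrb2]) (fun _ _ => rfl)
  simp only [upd_cf, List.length_replicate, List.drop_nil, Function.update_idem] at s2
  have s3 := run_fillN (d := dc A) (g := cf g) (r := rf .b) (s := fun _ => bc false)
    (by simpa using hg .b) (a := bc false)
    (u := List.replicate (2 * P.b) (bc false) ++ (bc true :: l)) (v := [])
    (R := List.replicate P.b .u) (m := m)
    (z := S0 (update o g ⟨List.replicate (2 * P.b) (bc false) ++ (bc true :: l), []⟩))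
    (by rw [S0_cf, Function.update_self])
    (by rw [S0_cf, Function.update_of_ne (hg _).symm, hrb]) (fun _ _ => rfl)
  simp only [upd_cf, List.length_replicate, List.drop_nil, Function.update_idem] at s3
  refine Run.to (Run.seq s1 (Run.seq s2 s3)) (by omega) ?_
  congr 3
  have e : 3 * P.b = P.b + 2 * P.b := by ring
  rw [List.map_cons, List.map_replicate, List.reverse_cons, List.reverse_replicate, e,
    List.replicate_add, List.append_assoc, List.append_assoc, List.singleton_append]

/-- Loop which only writes on `g`. -/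
theorem run_wloop0 {p : PC A} {g q : CF} (hgq : g ≠ q) (hg : g ≠ .h 3) (hq : q ≠ .h 3)
    {R : List (Ac A)} {m : CallMem A} {w' : List (Ac A)}
    (I : (CF → Zip (Ac A)) → Prop)
    (hI : ∀ o c v, c = .h 3 ∨ c = g ∨ c = q → I o → I (update o c v)) (t : ℕ)
    (h : ∀ (l : List (Ac A)) (o : CF → Zip (Ac A)), I o → o g = ⟨l, []⟩ →
      Run (dc A) p ⟨m, S0 o⟩ t ⟨m, S0 (update o g ⟨w'.reverse ++ l, []⟩)⟩)
    {l : List (Ac A)} {o : CF → Zip (Ac A)} (ho : I o) (h3 : o (.h 3) = ⟨[], []⟩)
    (h2 : o g = ⟨l, []⟩) (hr : o q = ⟨[], R⟩) :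
    Run (dc A) (forR (cf q) p) ⟨m, S0 o⟩ (R.length * (t + 2) + 2)
      ⟨m, S0 (update o g ⟨((List.range R.length).flatMap fun _ => w').reverse ++ l, []⟩)⟩ := by
  have e0 : ((List.range R.length).flatMap fun _ => ([] : List (Ac A))) = [] := by
    rw [List.flatMap_eq_nil_iff]
    intros
    rfl
  have h1 := run_wloop (A := A) (p := p) (f := .h 3) (g := g) (q := q) hg.symm hq.symm hgq
    (R := R) (m := m) (w := fun _ => []) (w' := fun _ => w') I hI t
    (fun i _ u v l o ho h1 h2 => by
      have h4 := h l o ho h2
      simp only [List.nil_append] at h1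
      rw [List.reverse_nil, List.nil_append, upd_self o (.h 3) _ h1]
      exact h4) (u := []) (v := []) (l := l) ho (by rw [e0, h3, List.nil_append]) h2 hr
  rw [e0, List.reverse_nil, List.nil_append, upd_self o (.h 3) _ h3] at h1
  exact h1

end

end Vale.Agent.P338.R3.H968
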