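import Vale.Agent.P338.R3.H968.Mulp3
import Vale.Agent.P338.R3.H525.OpsY
import Vale.Agent.P338.R3.H898.Act

/-!
P338-D: the act `prod` (product of two complex cells).
-/

namespace Vale.Agent.P338.R3.H968x

open Vale.Agent.P338.R3.H968 hiding pR
open Vale.Agent.P338.R2.H898 hiding val
open Prog
open Vale.Agent.P338.R2.H968
open Vale.Agent.P338.R2.H784
open Vale.Agent.P338.R3.H525
open Vale.Agent.P338.R3.H898

variable {A : MTM}

/-- Copies of the factors. -/
def pd1 (A : MTM) [DecidableEq A.Tape] : PC A :=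
  .seq (pPush A false) (.seq (pR A) (.seq (pPush A false) (.seq (pR A)
  (.seq (pPush A true) (.seq (pR A) (.seq (pPush A true) (pPush A true)))))))

/-- Copies of the factors. -/
def pd2 (A : MTM) [DecidableEq A.Tape] : PC A :=
  .seq (pL A) (.seq (pPush A true) (.seq (pR A) (.seq (pSet A false) (.seq (pL A)
  (.seq (pSet A false) (.seq (pL A) (pL A)))))))

/-- The products. -/
noncomputable def pd3 (A : MTM) [DecidableEq A.Tape] : PC A :=
  .seq (mulp A) (.seq (pR A) (.seq (mulp A) (.seq (pR A) (.seq (mulp A) (.seq (pR A)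
  (mulp A))))))

/-- The imaginary part. -/
def pd4 (A : MTM) [DecidableEq A.Tape] : PC A :=
  .seq (pPush A true) (.seq (pZeroC A) (.seq (pL A) (.seq (pAdd A false true)
  (.seq (pPush A false) (.seq (pZeroC A) (pL A))))))

/-- The real part. -/
def pd5 (A : MTM) [DecidableEq A.Tape] : PC A :=
  .seq (pPush A true) (.seq (pSet A false) (.seq (pL A) (.seq (pAdd A true true)
  (.seq (pR A) (.seq (pR A) (.seq (pR A) (pR A)))))))

/-- The product of the complex cells in the current four cells. -/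
noncomputable def pProd (A : MTM) [DecidableEq A.Tape] : PC A :=
  .seq (pd1 A) (.seq (pd2 A) (.seq (pd3 A) (.seq (pd4 A) (pd5 A))))

/-- The data with new array and stacks. -/
def sX (D : DS) (X : Zip Cell) (a b : List Cell) : DS := { D with X := X, A := a, B := b }

section
variable [DecidableEq A.Tape] {P : CPar} {D : DS} {c e : Cell} {l r a b : List Cell}

theorem pR' : Run (dc A) (pR A) (stc P (sX D ⟨l, c :: r⟩ a b)) (P.ell * 3 + 2)
    (stc P (sX D ⟨c :: l, r⟩ a b)) := run_pR (D := sX D ⟨l, c :: r⟩ a b) rfl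

theorem pL' : Run (dc A) (pL A) (stc P (sX D ⟨c :: l, r⟩ a b)) (P.ell * 3 + 2)
    (stc P (sX D ⟨l, c :: r⟩ a b)) := run_pL (D := sX D ⟨c :: l, r⟩ a b) rfl

theorem pA' : Run (dc A) (pPush A false) (stc P (sX D ⟨l, c :: r⟩ a b)) (P.ell * 8 + 4)
    (stc P (sX D ⟨l, c :: r⟩ (c :: a) b)) := run_pPush false (D := sX D ⟨l, c :: r⟩ a b) rfl

theorem pB' : Run (dc A) (pPush A true) (stc P (sX D ⟨l, c :: r⟩ a b)) (P.ell * 8 + 4)
    (stc P (sX D ⟨l, c :: r⟩ a (c :: b))) := run_pPush true (D := sX D ⟨l, c :: r⟩ a b) rfl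

theorem pS' : Run (dc A) (pSet A false) (stc P (sX D ⟨l, c :: r⟩ (e :: a) b)) (P.ell * 14 + 9)
    (stc P (sX D ⟨l, e :: r⟩ a b)) :=
  run_pSet false (D := sX D ⟨l, c :: r⟩ (e :: a) b) (S := a) rfl rfl

theorem pZ' : Run (dc A) (pZeroC A) (stc P (sX D ⟨l, c :: r⟩ a b)) (P.ell * 7 + 4)
    (stc P (sX D ⟨l, cZero :: r⟩ a b)) := run_pZeroC (D := sX D ⟨l, c :: r⟩ a b) rfl

theorem pAd' : Run (dc A) (pAdd A false true) (stc P (sX D ⟨l, c :: r⟩ a (e :: b)))
    (P.ell * 3 + P.nw * (P.b * 7 + 6) + 4) (stc P (sX D ⟨l, cAdd c e :: r⟩ a b)) :=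
  run_pAdd false true (D := sX D ⟨l, c :: r⟩ a (e :: b)) (S := b) rfl rfl

theorem pSb' : Run (dc A) (pAdd A true true) (stc P (sX D ⟨l, c :: r⟩ a (e :: b)))
    (P.ell * 3 + P.nw * (P.b * 7 + 6) + 4) (stc P (sX D ⟨l, cSub c e :: r⟩ a b)) :=
  run_pAdd true true (D := sX D ⟨l, c :: r⟩ a (e :: b)) (S := b) rfl rfl

theorem pM' (hA : Multiplies A) (hP : P.Ok) :
    Run (dc A) (mulp A) (stc P (sX D ⟨l, c :: r⟩ a (e :: b))) (tmp A P)
      (stc P (sX D ⟨l, cMulp P c e :: r⟩ a b)) :=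
  run_mulp hA hP (sX D ⟨l, c :: r⟩ a (e :: b)) c e r b rfl rfl

attribute [local irreducible] sX

theorem run_pd1 {x y x' y' : Cell} :
    Run (dc A) (pd1 A) (stc P (sX D ⟨l, x :: y :: x' :: y' :: r⟩ a b)) (P.ell * 49 + 26)
      (stc P (sX D ⟨x' :: y :: x :: l, y' :: r⟩ (y :: x :: a) (y' :: y' :: x' :: b))) := by
  refine Run.mono (Run.seq pA' (Run.seq pR' (Run.seq pA' (Run.seq pR' (Run.seq pB'
    (Run.seq pR' (Run.seq pB' pB'))))))) ?_
  omega

theorem run_pd2 {x y x' y' : Cell} :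
    Run (dc A) (pd2 A) (stc P (sX D ⟨x' :: y :: x :: l, y' :: r⟩ (y :: x :: a)
      (y' :: y' :: x' :: b))) (P.ell * 51 + 32)
      (stc P (sX D ⟨l, x :: y :: x :: y :: r⟩ a (x' :: y' :: y' :: x' :: b))) := by
  refine Run.mono (Run.seq pL' (Run.seq pB' (Run.seq pR' (Run.seq pS' (Run.seq pL'
    (Run.seq pS' (Run.seq pL' pL'))))))) ?_
  omega

theorem run_pd3 (hA : Multiplies A) (hP : P.Ok) {x y x' y' : Cell} :
    Run (dc A) (pd3 A) (stc P (sX D ⟨l, x :: y :: x :: y :: r⟩ a (x' :: y' :: y' :: x' :: b)))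
      (4 * tmp A P + P.ell * 9 + 6)
      (stc P (sX D ⟨cMulp P x y' :: cMulp P y y' :: cMulp P x x' :: l, cMulp P y x' :: r⟩
        a b)) := by
  refine Run.mono (Run.seq (pM' hA hP) (Run.seq pR' (Run.seq (pM' hA hP) (Run.seq pR'
    (Run.seq (pM' hA hP) (Run.seq pR' (pM' hA hP))))))) ?_
  omega

theorem run_pd4 {u v w x : Cell} :
    Run (dc A) (pd4 A) (stc P (sX D ⟨w :: v :: u :: l, x :: r⟩ a b))
      (P.ell * 39 + P.nw * (P.b * 7 + 6) + 24)
      (stc P (sX D ⟨u :: l, v :: cZero :: cZero :: r⟩ (cAdd w x :: a) b)) := by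
  refine Run.mono (Run.seq pB' (Run.seq pZ' (Run.seq pL' (Run.seq pAd' (Run.seq pA'
    (Run.seq pZ' pL')))))) ?_
  omega

theorem run_pd5 {u v w : Cell} {x y : Cell} :
    Run (dc A) (pd5 A) (stc P (sX D ⟨u :: l, v :: x :: y :: r⟩ (w :: a) b))
      (P.ell * 40 + P.nw * (P.b * 7 + 6) + 27)
      (stc P (sX D ⟨y :: x :: w :: cSub u v :: l, r⟩ a b)) := by
  refine Run.mono (Run.seq pB' (Run.seq pS' (Run.seq pL' (Run.seq pSb' (Run.seq pR'
    (Run.seq pR' (Run.seq pR' pR'))))))) ?_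
  omega

theorem run_pProd' (hA : Multiplies A) (hP : P.Ok) {x y x' y' : Cell} :
    Run (dc A) (pProd A) (stc P (sX D ⟨l, x :: y :: x' :: y' :: r⟩ a b))
      (4 * tmp A P + 400 * (P.ell + 1))
      (stc P (sX D ⟨cZero :: cZero :: cpIm P x y x' y' :: cpRe P x y x' y' :: l, r⟩ a b)) := by
  have hw := hP.hw
  have hs := hP.hs
  have hb := hP.hb
  have h0 : P.nw ≤ P.ell := Nat.le_mul_of_pos_right _ (by omega)
  have h1 : P.nw * (P.b * 7 + 6) ≤ 13 * P.ell := by
    have : P.nw * (P.b * 7 + 6) = 7 * P.ell + 6 * P.nw := by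
      simp only [CPar.ell]
      ring
    omega
  refine Run.mono (Run.seq run_pd1 (Run.seq run_pd2 (Run.seq (run_pd3 hA hP)
    (Run.seq run_pd4 run_pd5)))) ?_
  omega

end

section
variable [DecidableEq A.Tape] {P : CPar}

/-- **The act `prod`.** -/
theorem run_pProd (hA : Multiplies A) (hP : P.Ok) {D D' : DS} {u v : List Bool}
    (h : Ex1 P (10, u, v) D D') :
    Run (dc A) (pProd A) (stc P D) (4 * tmp A P + 400 * (P.ell + 1)) (stc P D') := by
  cases h with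
  | prod _ x y x' y' l r hX =>
    have h1 := run_pProd' (D := D) (a := D.A) (b := D.B) (l := l) (r := r) (x := x) (y := y)
      (x' := x') (y' := y') hA hP
    rw [show sX D ⟨l, x :: y :: x' :: y' :: r⟩ D.A D.B = D by rw [← hX]; rfl] at h1
    exact h1

end

end Vale.Agent.P338.R3.H968x
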